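import Vale.Agent.P165.Star

/-!
Under an operator bound the susceptibility doubles quickly, hence blows up.
-/

namespace Vale.Agent.P165

open Vale.Agent.P151

variable {V : Type*} {G : SimpleGraph V} {E E' : Finset (Sym2 V)} {p t : ℝ} {x y z : V} {Δ D : ℕ}

lemma russo_lower (h0 : 0 ≤ p) (h1 : p ≤ 1) (hE : Sub G E) {A : Set (Sym2 V) → Prop} (hA : Inc A)
    (P : V × V → Set (Sym2 V) → Prop)
    (hP : ∀ d ω, P d ω → ¬ A ω ∧ A (insert s(d.1, d.2) ω))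
    (hP' : ∀ a b ω, P (a, b) ω → ¬ P (b, a) ω) :
    ∑ d ∈ darts E, Pr E p (P d) ≤
      ∑ e ∈ E, Ex E p fun ω => ind (A (insert e ω)) - ind (A (ω \ {e})) := by
  refine sum_darts_le hE (g := fun d => Pr E p (P d)) fun a b _ => ?_
  unfold Pr
  rw [← Ex_add]
  refine Ex_mono h0 h1 fun ω _ => ?_
  by_cases c : P (a, b) ω
  · rw [ind_of c, ind_of_not (hP' a b ω c), ind_of (hP _ _ c).2,
      ind_of_not fun h => (hP _ _ c).1 (hA _ _ Set.sdiff_subset h)]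
    norm_num
  by_cases c' : P (b, a) ω
  · rw [ind_of c', ind_of_not c, Sym2.eq_swap, ind_of (hP _ _ c').2,
      ind_of_not fun h => (hP _ _ c').1 (hA _ _ Set.sdiff_subset h)]
    norm_num
  · rw [ind_of_not c, ind_of_not c', add_zero, sub_nonneg]
    exact ind_mono (hA _ _ (Set.sdiff_subset.trans (Set.subset_insert _ _)))

lemma le_dtau (h0 : 0 ≤ p) (h1 : p ≤ 1) (hE : Sub G E) :
    Ex E p (fun ω => ∑ d ∈ darts E, ind (d.1 ∈ Cl ω x ∧ d.2 ∉ Cl ω x) *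
      Pr E p fun η => Conn (η \ touch (Cl ω x)) d.2 y) ≤ dtau E p x y := by
  refine le_trans ?_ (russo_lower h0 h1 hE (inc_conn x y)
    (fun d ω => Conn ω x d.1 ∧ ¬ Conn ω x d.2 ∧ Conn ω d.2 y)
    (fun d ω h => ⟨fun h' => h.2.1 (h'.trans h.2.2.symm),
      (h.1.mono (Set.subset_insert _ _)).trans (conn_insert h.2.2)⟩)
    fun a b ω h h' => h.2.1 h'.1)
  rw [Ex_sum]
  refine Finset.sum_le_sum fun d _ => ?_
  unfold Pr
  simp only [← Ex_mul_left]
  rw [← resample x fun K η => ind (d.1 ∈ K ∧ d.2 ∉ K) * ind (Conn η d.2 y)]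
  refine Ex_mono h0 h1 fun ω _ => ?_
  rw [← ind_and]
  exact ind_mono fun h => ⟨h.1.1, h.1.2, h.2.mono Set.sdiff_subset⟩

lemma ind_sq (P : Prop) : ind P ^ 2 = ind P := by
  by_cases h : P <;> simp [ind, h]

lemma boundary_low (hG : DegLe G Δ) (h0 : 0 ≤ p) (h1 : p ≤ 1) (hE : Sub G E) {Λ : Finset V}
    (hΛ : verts E ⊆ Λ) {a X B R : ℝ} (hX : Bnd G p X) (hB : OpBnd G p B) (B0 : 0 < B)
    (R0 : 0 < R) (hR : Δ * B ^ 2 * X / R ≤ a / 2) (Z : Set V)
    (hZ : ∀ z ∈ Z, a ≤ ∑ y ∈ Λ, tau E p z y) (K : Set V) :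
    a / 2 * ∑ z ∈ Λ, ind (z ∈ Z ∧ z ∈ K) ≤ B * ∑ z ∈ Λ, ind (z ∈ K) + R * ∑ y ∈ Λ,
      ∑ d ∈ darts E, ind (d.1 ∈ K ∧ d.2 ∉ K) * Pr E p fun η => Conn (η \ touch K) d.2 y := by
  set f₀ : V → ℝ := fun z => ind (z ∈ Z ∧ z ∈ K) with hf₀
  set f : V → ℝ := fun z => ind (z ∈ K) with hf
  set m : V × V → V → ℝ := fun d y =>
    ind (d.1 ∈ K ∧ d.2 ∉ K) * Pr E p fun η => Conn (η \ touch K) d.2 y with hm
  have m0 : ∀ d y, 0 ≤ m d y := fun d y => mul_nonneg (ind_nonneg _) (Pr_nonneg h0 h1 _)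
  set u : V → ℝ := fun w => ∑ z ∈ Λ, f₀ z * tau E p z w with hu
  have i1 : ∀ z y, f₀ z * tau E p z y ≤
      f z * f y * tau E p z y + f₀ z * ∑ d ∈ darts E, tau E p z d.1 * m d y := by
    intro z y
    have j0 : 0 ≤ ∑ d ∈ darts E, tau E p z d.1 * m d y :=
      Finset.sum_nonneg fun d _ => mul_nonneg (tau_nonneg h0 h1) (m0 _ _)
    simp only [hf₀, hf]
    by_cases hz : z ∈ Z ∧ z ∈ K
    swap
    · rw [ind_of_not hz, zero_mul, zero_mul, add_zero]
      exact mul_nonneg (mul_nonneg (ind_nonneg _) (ind_nonneg _)) (tau_nonneg h0 h1)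
    rw [ind_of hz, ind_of hz.2]
    by_cases hy : y ∈ K
    · rw [ind_of hy]; linarith
    rw [ind_of_not hy, mul_zero, zero_mul, zero_add, one_mul, one_mul]
    refine Pr_dart_le h0 h1 K (fun w ω => Conn ω z w) (fun v η => Conn (η \ touch K) v y)
      (inc_conn z) (fun v => inc_conn_off v y _) fun ω hω h => ?_
    obtain ⟨w, hw, v, hv, he, γ, k1, k2, k3⟩ := split_last K (finite_of_sub hω) h hz.2 hy
    exact ⟨w, hw, v, hv, hω he, γ, ω \ γ, k1, Set.sdiff_subset, Set.disjoint_sdiff_right, k2, k3⟩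
  have i2 : a * ∑ z ∈ Λ, f₀ z ≤ ∑ z ∈ Λ, ∑ y ∈ Λ, f₀ z * tau E p z y := by
    rw [Finset.mul_sum]
    refine Finset.sum_le_sum fun z _ => ?_
    rw [← Finset.mul_sum]
    simp only [hf₀]
    by_cases hz : z ∈ Z ∧ z ∈ K
    · rw [ind_of hz, mul_one, one_mul]; exact hZ z hz.1
    · rw [ind_of_not hz, mul_zero, zero_mul]
  have i3 := i2.trans (Finset.sum_le_sum fun z _ => Finset.sum_le_sum fun y _ => i1 z y)
  have e1 : ∑ z ∈ Λ, ∑ y ∈ Λ, f₀ z * ∑ d ∈ darts E, tau E p z d.1 * m d y =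
      ∑ d ∈ darts E, u d.1 * ∑ y ∈ Λ, m d y := by
    simp only [hu, Finset.mul_sum, Finset.sum_mul]
    conv_lhs => enter [2, z]; rw [Finset.sum_comm]
    rw [Finset.sum_comm]
    refine Finset.sum_congr rfl fun d _ => ?_
    rw [Finset.sum_comm]
    exact Finset.sum_congr rfl fun _ _ => Finset.sum_congr rfl fun _ _ => by ring
  simp only [Finset.sum_add_distrib] at i3
  rw [e1] at i3
  have i4 := hB E hE Λ f fun _ => ind_nonneg _
  have i5 := (hB E hE Λ).sq_le (ker_tau h0 h1) B0 (f := f₀) fun _ => ind_nonneg _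
  simp only [hf, hf₀, ind_sq] at i4 i5
  have i6 : ∑ d ∈ darts E, u d.1 * ∑ y ∈ Λ, m d y ≤
      ∑ d ∈ darts E, (R * ∑ y ∈ Λ, m d y + u d.1 ^ 2 * (X / R)) := by
    refine Finset.sum_le_sum fun d _ => ?_
    have j0 : 0 ≤ ∑ y ∈ Λ, m d y := Finset.sum_nonneg fun _ _ => m0 _ _
    have j1 : ∑ y ∈ Λ, m d y ≤ X := le_trans (Finset.sum_le_sum fun y _ =>
      (mul_le_of_le_one_left (Pr_nonneg h0 h1 _) (ind_le_one _)).trans
        (Pr_mono h0 h1 fun ω _ h => h.mono Set.sdiff_subset)) (hX E hE d.2 Λ)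
    have X0 := j0.trans j1
    rcases le_total (u d.1) R with h | h
    · exact le_add_of_le_of_nonneg (mul_le_mul_of_nonneg_right h j0) (by positivity)
    · refine le_add_of_nonneg_of_le (by positivity) ?_
      have u0 := R0.le.trans h
      rw [← mul_div_assoc, le_div_iff₀ R0]
      nlinarith [mul_le_mul (mul_le_mul_of_nonneg_left j1 u0) h R0.le (by positivity)]
  rw [Finset.sum_add_distrib, ← Finset.mul_sum, ← Finset.sum_mul,
    Finset.sum_comm (s := darts E)] at i6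
  have i7 := (sum_darts_fst hG hE hΛ (g := fun w => u w ^ 2) fun _ => sq_nonneg _).trans
    (mul_le_mul_of_nonneg_left i5 (by positivity))
  rcases isEmpty_or_nonempty V with hV | ⟨⟨o⟩⟩
  · simp [Finset.eq_empty_of_isEmpty Λ]
  have X0 : 0 ≤ X := zero_le_one.trans (hX.one_le o)
  have i8 := mul_le_mul_of_nonneg_right i7 (show 0 ≤ X / R by positivity)
  have i9 := mul_le_mul_of_nonneg_right hR
    (show 0 ≤ ∑ z ∈ Λ, f₀ z from Finset.sum_nonneg fun _ _ => ind_nonneg _)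
  unfold Bf at i4
  rw [mul_div_assoc] at i9
  simp only [hf₀, hf] at i3 i9 ⊢
  linarith

lemma QT.double (h : QT G Δ D) {a B : ℝ} (h0 : 0 ≤ p) (h1 : t ≤ 1) (hL : Low G p a)
    (hB : OpBnd G t B) (B1 : 1 ≤ B) (ha : 8 * B ≤ c0 Δ D * a)
    (ht : p + 32 * Δ * B ^ 2 / (c0 Δ D * a) ≤ t) : Low G t (2 * a) := by
  classical
  have c0' := h.c0_pos
  have c1 := h.c0_le
  set c := c0 Δ D
  have hΔ : (0 : ℝ) < Δ := by exact_mod_cast h.pos
  have a0 : 0 < a := by nlinarith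
  have hpt : p ≤ t := le_trans (le_add_of_nonneg_right (by positivity)) ht
  by_cases hX : Bnd G t (2 * a / c)
  swap
  · have := h.low_of_not_Bnd (h0.trans hpt) h1 (by rw [le_div_iff₀ c0']; nlinarith) hX
    rwa [mul_div_cancel₀ _ c0'.ne'] at this
  intro x
  obtain ⟨E₀, hE₀, Λ₀, b0⟩ := hL x
  obtain ⟨F, hF, b3, Λ, b4, b5, b6⟩ := hL.common h0 (hpt.trans h1) hE₀ Λ₀
  refine ⟨F, hF, Λ, ?_⟩
  set R := 4 * Δ * B ^ 2 / c with hR
  have R0 : 0 < R := by positivity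
  have key := le_sub_of_deriv (f := fun r => ∑ y ∈ Λ, tau F r x y)
    (fun r => HasDerivAt.fun_sum fun y _ => hasDerivAt_tau F x y r) hpt (c := a ^ 2 / (4 * R))
    fun r r1 r2 => by
      have r0 := h0.trans r1
      have r3 := r2.trans h1
      have hX' := hX.mono r0 r2 h1 le_rfl
      have i1 := Ex_mono (E := F) r0 r3 fun ω _ => boundary_low h.deg r0 r3 hF b5 hX'
        (hB.mono r0 r2 h1 le_rfl) (by linarith) R0 (a := a) (le_of_eq (by rw [hR]; field_simp; ring))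
        Λ₀ (fun z hz => (b6 z hz).trans (sum_tau_mono h0 r1 r3 le_rfl le_rfl)) (Cl ω x)
      rw [Ex_add, Ex_mul_left, Ex_mul_left, Ex_mul_left, Ex_sum, Ex_sum, Ex_sum] at i1
      have i2 := Finset.sum_le_sum fun y (_ : y ∈ Λ) => le_dtau (x := x) (y := y) r0 r3 hF
      have i3 : a ≤ ∑ z ∈ Λ, Ex F r fun ω => ind (z ∈ (Λ₀ : Set V) ∧ z ∈ Cl ω x) := by
        refine (b0.trans (sum_tau_mono h0 r1 r3 b3 le_rfl)).trans (le_trans ?_
          (Finset.sum_le_sum_of_subset_of_nonneg b4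
            fun _ _ _ => Ex_nonneg r0 r3 fun _ _ => ind_nonneg _))
        exact Finset.sum_le_sum fun z hz => Pr_mono r0 r3 fun ω _ h => ⟨hz, h⟩
      have i4 : ∑ z ∈ Λ, Ex F r (fun ω => ind (z ∈ Cl ω x)) ≤ 2 * a / c := hX' F hF x Λ
      have i5 : B * (2 * a / c) ≤ a ^ 2 / 4 := by
        rw [← mul_div_assoc, div_le_iff₀ c0']; nlinarith
      rw [div_le_iff₀ (by positivity)]
      nlinarith [mul_le_mul_of_nonneg_left i2 R0.le, mul_le_mul_of_nonneg_left i3 a0.le,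
        mul_le_mul_of_nonneg_left i4 (show 0 ≤ B by linarith)]
  have i1 := mul_le_mul_of_nonneg_left (le_sub_iff_add_le'.2 ht)
    (show 0 ≤ a ^ 2 / (4 * R) by positivity)
  have e : a ^ 2 / (4 * R) * (32 * Δ * B ^ 2 / (c * a)) = 2 * a := by rw [hR]; field_simp; ring
  have i2 : 0 ≤ ∑ y ∈ Λ, tau F p x y := Finset.sum_nonneg fun _ _ => tau_nonneg h0 (hpt.trans h1)
  linarith

lemma QT.blowup (h : QT G Δ D) {a B : ℝ} (h0 : 0 ≤ p) (h1 : t ≤ 1) (hL : Low G p a)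
    (hB : OpBnd G t B) (B1 : 1 ≤ B) (ha : 8 * B ≤ c0 Δ D * a)
    (ht : p + 64 * Δ * B ^ 2 / (c0 Δ D * a) ≤ t) (X : ℝ) : ¬ Bnd G t X := by
  have c0' := h.c0_pos
  have hΔ : (0 : ℝ) < Δ := by exact_mod_cast h.pos
  have a0 : 0 < a := by nlinarith
  set δ := 64 * Δ * B ^ 2 / (c0 Δ D * a) with hδ
  have δ0 : 0 < δ := by positivity
  have hs : ∀ j : ℕ, 0 ≤ δ - δ / 2 ^ j := fun j =>
    sub_nonneg.2 (div_le_self δ0.le (one_le_pow₀ one_le_two))
  have hs' : ∀ j : ℕ, p + (δ - δ / 2 ^ j) ≤ t := fun j => by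
    have : 0 ≤ δ / 2 ^ j := by positivity
    linarith
  have key : ∀ j : ℕ, Low G (p + (δ - δ / 2 ^ j)) (2 ^ j * a) := by
    intro j
    induction j with
    | zero => simpa using hL
    | succ j ih =>
      have := h.double (add_nonneg h0 (hs j)) ((hs' (j + 1)).trans h1) ih
        (hB.mono (add_nonneg h0 (hs _)) (hs' _) h1 le_rfl) B1
        (ha.trans (mul_le_mul_of_nonneg_left
          (le_mul_of_one_le_left a0.le (one_le_pow₀ one_le_two)) c0'.le))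
        (le_of_eq (by rw [hδ]; field_simp; ring))
      rwa [← mul_assoc, ← pow_succ'] at this
  obtain ⟨j, hj⟩ := pow_unbounded_of_one_lt (X / a) (one_lt_two (α := ℝ))
  rw [div_lt_iff₀ a0] at hj
  have := h.inf
  exact ((key j).mono (add_nonneg h0 (hs j)) (hs' j) h1 le_rfl).not_Bnd
    (Classical.arbitrary V) hj

/-- from a small operator norm at a large susceptibility to a gap -/
lemma QT.gap (h : QT G Δ D) {a B : ℝ} (h0 : 0 ≤ p) (h1 : p ≤ 1) (hL : Low G p a)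
    (hB : OpBnd G p B) (ha : 4096 * Δ ^ 2 * B ^ 3 ≤ c0 Δ D * a) :
    ∃ s t, 0 ≤ s ∧ s < t ∧ t ≤ 1 ∧ (∀ X, ¬ Bnd G s X) ∧ OpBnd G t (2 * B) := by
  have := h.inf
  have B1 := hB.one_le (Classical.arbitrary V)
  have c0' := h.c0_pos
  have hΔ : (1 : ℝ) ≤ Δ := by exact_mod_cast h.pos
  set w := 1 / (8 * Δ * B) with hw
  have w0 : 0 < w := by positivity
  have hw1 : p + w ≤ 1 := by
    by_contra hc
    exact h.not_opBnd _ (hB.window h.deg h.pos (by linarith) h0 h1 le_rfl (by linarith))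
  have i1 := hB.window h.deg h.pos (by linarith) h0 (t := p + w) (by linarith) hw1 (by linarith)
  have a0 : 0 < c0 Δ D * a := lt_of_lt_of_le (by positivity) ha
  refine ⟨p + w / 2, p + w, by linarith, by linarith, hw1, h.blowup h0 (by linarith) hL
    (i1.mono (by linarith) (by linarith) hw1 le_rfl) (by linarith) (le_trans ?_ ha) ?_, i1⟩
  · have : (1 : ℝ) ≤ Δ ^ 2 * B ^ 2 := one_le_mul_of_one_le_of_one_le (one_le_pow₀ hΔ) (one_le_pow₀ B1)
    nlinarith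
  · rw [add_le_add_iff_left, div_le_iff₀ a0]
    refine le_trans (le_of_eq ?_) (mul_le_mul_of_nonneg_left ha (by positivity))
    rw [hw]; field_simp; ring

end Vale.Agent.P165
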