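import Vale.Agent.P165.Fat
import Vale.Agent.P165.Double

/-!
Choice of parameters.
-/

namespace Vale.Agent.P165

open Vale.Agent.P151 Real

variable {V : Type*} {G : SimpleGraph V} {Δ D : ℕ}

lemma succ_le_exp {ε : ℝ} (hε : 0 < ε) (k : ℕ) : (k : ℝ) + 1 ≤ (1 / ε + 1) * exp (ε * k) := by
  have h1 : ε * k + 1 ≤ exp (ε * k) := add_one_le_exp _
  have h2 : 1 ≤ exp (ε * k) := one_le_exp (by positivity)
  have h3 : (k : ℝ) ≤ 1 / ε * exp (ε * k) := by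
    rw [one_div_mul_eq_div, le_div_iff₀ hε]; linarith
  linarith

lemma QT.package (h : QT G Δ D) {p₁ X₁ a b ε : ℝ} (h0 : 0 ≤ p₁) (h1 : p₁ ≤ 1) (hB : Bnd G p₁ X₁)
    (hE : Es G p₁ (exp (-a)) (exp (-b))) (b0 : 0 ≤ b) (ε0 : 0 < ε) :
    ∃ C X₀ : ℝ, 1 ≤ C ∧ 2 ≤ X₀ ∧ ∀ k : ℕ, ∃ (l : ℕ) (M : ℝ), 1 ≤ M ∧
      (l + 1) * M ^ 2 ≤ C * exp (ε * k) ∧ ∀ p X, 0 ≤ p → p ≤ 1 → Bnd G p X → ¬ Bnd G p X₀ →
        SE G p l (exp (-(a * k))) (exp (-(b * k)) / 2) ∧ SBnd G p (l + l) M := by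
  have := h.inf
  obtain ⟨N, hN⟩ := hB.fam h.deg h0 h1
  obtain ⟨m, hm⟩ := pow_unbounded_of_one_lt (exp b) (one_lt_two (α := ℝ))
  set L := N * Δ + 1 with hL
  set δ := ε / (8 * (m * L + 1)) with hδ
  have δ0 : 0 < δ := by positivity
  obtain ⟨p', X', a0, a1, a2, a3⟩ := h.near_top (one_lt_exp_iff.2 δ0)
  have X1 := a2.one_le (Classical.arbitrary V)
  have c1 : (1 : ℝ) ≤ m * L + L + 1 := le_add_of_nonneg_left (by positivity)
  have c2 : (1 : ℝ) ≤ 1 / (ε / 2) + 1 := le_add_of_nonneg_left (by positivity)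
  have c3 : (1 : ℝ) ≤ exp (4 * L * δ) * X' ^ 2 :=
    one_le_mul_of_one_le_of_one_le (one_le_exp (by positivity)) (one_le_pow₀ X1)
  refine ⟨(m * L + L + 1) * (1 / (ε / 2) + 1) * (exp (4 * L * δ) * X' ^ 2), max 2 (max X₁ X'),
    one_le_mul_of_one_le_of_one_le (one_le_mul_of_one_le_of_one_le c1 c2) c3, le_max_left _ _,
    fun k => ⟨(k * m + 1) * L, exp δ ^ ((k * m + 1) * L + (k * m + 1) * L) * X',
      one_le_mul_of_one_le_of_one_le (one_le_pow₀ (one_le_exp δ0.le)) X1, ?_,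
      fun p X p0 p1 b1 b2 => ⟨?_, ?_⟩⟩⟩
  · have i1 : (((k * m + 1) * L : ℕ) : ℝ) + 1 ≤
        (m * L + L + 1) * ((1 / (ε / 2) + 1) * exp (ε / 2 * k)) := by
      refine le_trans ?_ (mul_le_mul_of_nonneg_left (succ_le_exp (half_pos ε0) k) (by positivity))
      push_cast
      have : (0 : ℝ) ≤ k * L + k + m * L := by positivity
      linarith
    have i2 : (exp δ ^ ((k * m + 1) * L + (k * m + 1) * L) * X') ^ 2 ≤
        exp (ε / 2 * k) * (exp (4 * L * δ) * X' ^ 2) := by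
      rw [mul_pow, ← mul_assoc, ← pow_mul, ← exp_nat_mul, ← exp_add]
      refine mul_le_mul_of_nonneg_right (exp_le_exp.2 ?_) (by positivity)
      have : 4 * (m * L) * δ ≤ ε / 2 := by
        rw [hδ, ← mul_div_assoc, div_le_iff₀ (by positivity)]; nlinarith
      push_cast
      nlinarith [mul_le_mul_of_nonneg_right this (show (0 : ℝ) ≤ k by positivity)]
    refine (mul_le_mul i1 i2 (by positivity) (by positivity)).trans (le_of_eq ?_)
    rw [show ε * k = ε / 2 * k + ε / 2 * k by ring, exp_add]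
    ring
  · have i1 := (hE.pow h0 (h.lt_one' hB h0 h1) (exp_pos _).le (exp_pos _).le
      (exp_le_one_iff.2 (by linarith)) k).se h.deg h0 h1 hN (k * m + 1)
    rw [← exp_nat_mul, ← exp_nat_mul, mul_neg, mul_neg, mul_comm _ a, mul_comm _ b] at i1
    refine i1.mono h0 (le_of_not_Bnd b2 hB p0 h1 ((le_max_left _ _).trans (le_max_right _ _)))
      p1 ?_
    have : (1 / 2 : ℝ) ^ (k * m) ≤ exp (-(b * k)) := by
      rw [mul_comm k, pow_mul, mul_comm b, ← mul_neg, exp_nat_mul]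
      refine pow_le_pow_left₀ (by positivity) ?_ k
      rw [exp_neg, one_div, inv_pow]
      exact inv_anti₀ (exp_pos _) hm.le
    rw [pow_succ]
    linarith
  · exact a2.sBnd a0 (le_of_not_Bnd b2 a2 p0 a1 ((le_max_right _ _).trans (le_max_right _ _)))
      p1 (a3 p X p1 b1) _

lemma QT.regime' (h : QT G Δ D) {X X₀ : ℝ} (h2 : 2 ≤ X₀) (hX : 2 * X₀ ≤ X) :
    ∃ p, p0 Δ ≤ p ∧ p < 1 ∧ Bnd G p X ∧ ¬ Bnd G p X₀ ∧ Low G p (c0 Δ D / 2 * X) := by
  obtain ⟨p, p0, p1, a1, a2⟩ := h.regime (X := X / 2) (by linarith)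
  have a3 := h.low_of_not_Bnd p0 p1 (by linarith) a2
  refine ⟨p, le_of_not_Bnd a2 h.bnd_p0 p0 h.p0_le (by linarith), h.lt_one' a1 p0 p1,
    a1.mono p0 le_rfl p1 (by linarith), fun hb => a2 (hb.mono p0 le_rfl p1 (by linarith)),
    a3.mono p0 le_rfl p1 (le_of_eq (by ring))⟩

/-- escape with exponent `η` -/
def Esc (G : SimpleGraph V) (η : ℝ) : Prop :=
  ∃ p X a : ℝ, 0 ≤ p ∧ p ≤ 1 ∧ Bnd G p X ∧ 0 < a ∧ Es G p (exp (-a)) (exp (-(η * a)))

lemma QT.esc_base (h : QT G Δ D) {κ : ℝ} (hκ : 0 < κ) (hG : NA G κ) : ∃ η, 0 < η ∧ Esc G η := by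
  have a0 : 0 < log (1 + κ) := log_pos (by linarith)
  have b0 : 0 ≤ - log (p0 Δ) := neg_nonneg.2 (log_nonpos h.p0_pos.le h.p0_le)
  refine ⟨(1 - log (p0 Δ)) / log (1 + κ), div_pos (by linarith) a0, p0 Δ, 2, _, h.p0_pos.le,
    h.p0_le, h.bnd_p0, a0, (hG.es hκ h.p0_pos.le h.p0_le).mono (le_of_eq ?_) ?_⟩
  · rw [exp_neg, exp_log (by linarith), one_div]
  · rw [div_mul_cancel₀ _ a0.ne', ← le_log_iff_exp_le h.p0_pos]; linarith

lemma QT.esc_step (h : QT G Δ D) {η : ℝ} (η0 : 0 < η) (hη : Esc G η) : Esc G (3 / 4 * η) := by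
  obtain ⟨p₁, X₁, a, h0, h1, hB, a0, hE⟩ := hη
  set b := η * a with hb
  have b0 : 0 < b := by positivity
  obtain ⟨C, X₀, C1, X2, hk⟩ := h.package h0 h1 hB hE b0.le (ε := b / 4) (by positivity)
  have c0' := h.c0_pos
  have c1 := h.c0_le
  have q0 := h.p0_pos
  set c := c0 Δ D / 2 with hc
  have c2 : 0 < c := by positivity
  set C₃ := 2 * C / p0 Δ + 2 * X₀ with hC₃
  have C2 : 0 < 2 * C / p0 Δ := by positivity
  have C3 : 0 < C₃ := by positivity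
  obtain ⟨k, hk'⟩ := exists_nat_gt (max (log (4 / c) / a)
    ((log (10 * C₃ / c ^ 2) + 3 / 4 * η * log (4 / c)) / (b / 8)))
  have k1 := (le_max_left _ _).trans_lt hk'
  have k2 := (le_max_right _ _).trans_lt hk'
  rw [div_lt_iff₀ (by positivity)] at k1 k2
  obtain ⟨l, M, M1, hl, hp⟩ := hk k
  have e1 : 1 ≤ exp (5 / 8 * b * k) := one_le_exp (by positivity)
  obtain ⟨p, p0', p1, a1, a2, a3⟩ := h.regime' X2 (X := C₃ * exp (5 / 8 * b * k)) (by nlinarith)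
  have pp := q0.trans_le p0'
  obtain ⟨s1, s2⟩ := hp p _ pp.le p1.le a1 a2
  have key := improve h.deg pp p1.le a1 a3 (by positivity) c2 (by linarith)
    (s2.mono pp.le p1.le (Nat.le_add_right l l)) s1 (by positivity) (by
      have i1 : (l + 1 : ℝ) * M ≤ (l + 1) * M ^ 2 :=
        mul_le_mul_of_nonneg_left (by nlinarith) (by positivity)
      have i2 : 2 * C ≤ p * C₃ ^ 2 := by
        have : 2 * C / p0 Δ ≤ C₃ ^ 2 := by nlinarith
        rw [div_le_iff₀ q0] at this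
        nlinarith [mul_le_mul_of_nonneg_left p0' (sq_nonneg C₃)]
      have e : exp (-(b * k)) * exp (5 / 8 * b * k) ^ 2 = exp (b / 4 * k) := by
        rw [← exp_nat_mul, ← exp_add]; congr 1; push_cast; ring
      refine (i1.trans hl).trans ?_
      rw [← e, mul_pow]
      nlinarith [mul_le_mul_of_nonneg_right i2
        (show 0 ≤ exp (-(b * k)) * exp (5 / 8 * b * k) ^ 2 by positivity)])
  refine ⟨p, _, a * k - log (4 / c), pp.le, p1.le, a1, by linarith, key.mono (le_of_eq ?_) ?_⟩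
  · rw [neg_sub, sub_eq_add_neg, exp_add, exp_log (by positivity)]; ring
  · have e : c ^ 2 / (10 * (C₃ * exp (5 / 8 * b * k))) =
        exp (-(log (10 * C₃ / c ^ 2)) + -(5 / 8 * b * k)) := by
      rw [exp_add, exp_neg, exp_neg, exp_log (by positivity)]; field_simp
    rw [e, exp_le_exp]
    have : 3 / 4 * η * (a * k) = 3 / 4 * b * k := by rw [hb]; ring
    linarith

lemma Esc.mono {η η' : ℝ} (h : Esc G η) (hη : η ≤ η') : Esc G η' := by
  obtain ⟨p, X, a, h0, h1, hB, a0, hE⟩ := h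
  exact ⟨p, X, a, h0, h1, hB, a0, hE.mono le_rfl (exp_le_exp.2 (by nlinarith))⟩

lemma QT.esc (h : QT G Δ D) {κ : ℝ} (hκ : 0 < κ) (hG : NA G κ) {η : ℝ} (η0 : 0 < η) :
    Esc G η := by
  obtain ⟨η₀, a0, a1⟩ := h.esc_base hκ hG
  have key : ∀ n : ℕ, Esc G ((3 / 4) ^ n * η₀) := by
    intro n
    induction n with
    | zero => simpa using a1
    | succ n ih => rw [pow_succ', mul_assoc]; exact h.esc_step (by positivity) ih
  obtain ⟨n, hn⟩ := exists_pow_lt_of_lt_one (div_pos η0 a0) (show (3 / 4 : ℝ) < 1 by norm_num)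
  rw [lt_div_iff₀ a0] at hn
  exact (key n).mono hn.le

lemma num_theta {a c : ℝ} {k : ℕ} (_c0 : 0 < c) (c1 : c ≤ 1) (hk : 2 ≤ k * a) :
    exp (-(a * k)) * (1 + 2 * (c / 4 * exp (a / 2 * k)) ^ 2 / c) ≤ 1 / 2 := by
  have e : exp (-(a * k)) * exp (a / 2 * k) ^ 2 = 1 := by
    rw [← exp_nat_mul, ← exp_add, ← exp_zero]; congr 1; push_cast; ring
  have i1 : exp (-(a * k)) ≤ 1 / 3 := by
    rw [exp_neg, one_div]
    exact inv_anti₀ (by norm_num) (by linarith [add_one_le_exp (a * k)])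
  have e2 : exp (-(a * k)) * (1 + 2 * (c / 4 * exp (a / 2 * k)) ^ 2 / c) =
      exp (-(a * k)) + c / 8 * (exp (-(a * k)) * exp (a / 2 * k) ^ 2) := by
    field_simp; ring
  rw [e2, e]
  linarith

lemma num_op {a c C Y p q : ℝ} {k m : ℕ} (a0 : 0 < a) (c0 : 0 < c) (c1 : c ≤ 1) (C0 : 0 < C)
    (q0 : 0 < q) (hp : q ≤ p) (Y0 : 0 ≤ Y) (hm : exp a ≤ 2 ^ m) (hl : Y ≤ C * exp (a / 48 * k)) :
    (((k * m : ℕ) : ℝ) + 1) * (8 * (32 * Y / (p * c * (exp (-(1 / 24 * a * k)) / 2) ^ 2)) +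
      2 * (c / 4 * exp (a / 2 * k)) / 2 ^ (k * m)) ≤
      (m + 1) * (1 / (a / 48) + 1) * (1024 * C / (q * c) + 1) * exp (a / 8 * k) := by
  have pp := q0.trans_le hp
  have i1 : ((k * m : ℕ) : ℝ) + 1 ≤ (m + 1) * ((1 / (a / 48) + 1) * exp (a / 48 * k)) := by
    refine le_trans ?_ (mul_le_mul_of_nonneg_left (succ_le_exp (by positivity) k) (by positivity))
    push_cast
    have : (0 : ℝ) ≤ k + m := by positivity
    linarith
  have i2 : 2 * (c / 4 * exp (a / 2 * k)) / 2 ^ (k * m) ≤ exp (5 / 48 * a * k) := by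
    refine le_trans ?_ (one_le_exp (by positivity))
    rw [div_le_one (by positivity), mul_comm k, pow_mul]
    refine le_trans ?_ (pow_le_pow_left₀ (exp_pos _).le hm k)
    rw [← exp_nat_mul]
    have : exp (a / 2 * k) ≤ exp (k * a) :=
      exp_le_exp.2 (by nlinarith [show (0 : ℝ) ≤ k * a by positivity])
    nlinarith [exp_pos (a / 2 * k)]
  have i3 : 8 * (32 * Y / (p * c * (exp (-(1 / 24 * a * k)) / 2) ^ 2)) ≤
      1024 * C / (q * c) * exp (5 / 48 * a * k) := by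
    have e : exp (5 / 48 * a * k) * exp (-(1 / 24 * a * k)) ^ 2 = exp (a / 48 * k) := by
      rw [← exp_nat_mul, ← exp_add]; congr 1; push_cast; ring
    rw [← e] at hl
    have j1 : 1024 * C / (p * c) ≤ 1024 * C / (q * c) :=
      div_le_div_of_nonneg_left (by positivity) (by positivity)
        (mul_le_mul_of_nonneg_right hp c0.le)
    refine le_trans ?_ (mul_le_mul_of_nonneg_right j1 (exp_pos _).le)
    rw [← mul_div_assoc, div_le_iff₀ (by positivity)]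
    refine le_trans (by linarith : _ ≤ 256 * (C * (exp (5 / 48 * a * k) *
      exp (-(1 / 24 * a * k)) ^ 2))) (le_of_eq ?_)
    field_simp; ring
  refine (mul_le_mul i1 (add_le_add i3 i2) (by positivity) (by positivity)).trans (le_of_eq ?_)
  rw [show a / 8 * k = a / 48 * k + 5 / 48 * a * k by ring, exp_add]
  ring

lemma num_gap {a c c' A C : ℝ} {k : ℕ} (c0 : 0 < c) (c0' : 0 < c')
    (hk : 8 * (A * C ^ 3 / (c' * c ^ 2 / 4)) ≤ k * a) :
    A * (C * exp (a / 8 * k)) ^ 3 ≤ c' * (c * (c / 4 * exp (a / 2 * k))) := by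
  have i1 : A * C ^ 3 / (c' * c ^ 2 / 4) ≤ exp (a / 8 * k) := by
    linarith [add_one_le_exp (a / 8 * k)]
  have e : exp (a / 2 * k) = exp (a / 8 * k) * exp (a / 8 * k) ^ 3 := by
    rw [← exp_nat_mul, ← exp_add]; congr 1; push_cast; ring
  rw [div_le_iff₀ (by positivity)] at i1
  rw [e, mul_pow]
  linarith [mul_le_mul_of_nonneg_right i1 (show 0 ≤ exp (a / 8 * k) ^ 3 by positivity)]

theorem QT.goal (h : QT G Δ D) {κ : ℝ} (hκ : 0 < κ) (hG : NA G κ) :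
    ∃ s t B, 0 ≤ s ∧ s < t ∧ t ≤ 1 ∧ (∀ X, ¬ Bnd G s X) ∧ OpBnd G t B := by
  obtain ⟨p₁, X₁, a, h0, h1, hB, a0, hE⟩ := h.esc hκ hG (η := 1 / 24) (by norm_num)
  obtain ⟨C, X₀, C1, X2, hk⟩ := h.package h0 h1 hB hE (by positivity) (ε := a / 48) (by positivity)
  have c0' := h.c0_pos
  have c1 := h.c0_le
  have q0 := h.p0_pos
  obtain ⟨c, hc⟩ : ∃ c, c = c0 Δ D / 2 := ⟨_, rfl⟩
  have c2 : 0 < c := by rw [hc]; positivity
  have c3 : c ≤ 1 := by linarith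
  obtain ⟨m, hm⟩ := pow_unbounded_of_one_lt (exp a) (one_lt_two (α := ℝ))
  obtain ⟨C₆, hC₆⟩ : ∃ C₆ : ℝ,
    C₆ = (m + 1) * (1 / (a / 48) + 1) * (1024 * C / (p0 Δ * c) + 1) := ⟨_, rfl⟩
  have C6 : 0 < C₆ := by rw [hC₆]; positivity
  have K0 : 0 ≤ 4096 * Δ ^ 2 * C₆ ^ 3 / (c0 Δ D * c ^ 2 / 4) := by positivity
  have X0 : 0 ≤ 8 * X₀ / c := by positivity
  obtain ⟨k, hk'⟩ := exists_nat_gt
    ((2 + 2 * (8 * X₀ / c) + 8 * (4096 * Δ ^ 2 * C₆ ^ 3 / (c0 Δ D * c ^ 2 / 4))) / a)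
  rw [div_lt_iff₀ a0] at hk'
  obtain ⟨l, M, M1, hl, hp⟩ := hk k
  obtain ⟨p, p0', p1, a1, a2, a3⟩ := h.regime' X2 (X := c / 4 * exp (a / 2 * k)) (by
    have : 8 * X₀ / c ≤ exp (a / 2 * k) := by linarith [add_one_le_exp (a / 2 * k)]
    rw [div_le_iff₀ c2] at this
    linarith)
  rw [← hc] at a3
  have pp := q0.trans_le p0'
  obtain ⟨s1, s2⟩ := hp p _ pp.le p1.le a1 a2
  have key := (fat_op h.deg pp p1 a1 a3 (by positivity) c2 s2 (by linarith) s1 (by positivity)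
    (exp_pos _).le (num_theta c2 c3 (by linarith)) (k * m)).mono pp.le le_rfl p1.le
    (num_op a0 c2 c3 (by linarith) q0 p0' (by positivity) hm.le hl)
  rw [← hC₆] at key
  obtain ⟨s, t, r⟩ := h.gap pp.le p1.le a3 key (num_gap c2 c0' (by linarith))
  exact ⟨s, t, _, r⟩

end Vale.Agent.P165
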