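import Vale.Agent.P151.Tools

/-!
The van den Berg-Kesten inequality, the Margulis-Russo formula, thinning, finite energy.
-/

namespace Vale.Agent.P165

open Vale.Agent.P151

variable {ι : Type*} {E : Finset ι} {p : ℝ}

/-- disjoint occurrence -/
def Dis (A B : Set ι → Prop) (ω : Set ι) : Prop :=
  ∃ γ₁ γ₂ : Set ι, γ₁ ⊆ ω ∧ γ₂ ⊆ ω ∧ Disjoint γ₁ γ₂ ∧ A γ₁ ∧ B γ₂

/-- increasing events -/
def Inc (A : Set ι → Prop) : Prop := ∀ ω ω', ω ⊆ ω' → A ω → A ω'

lemma inc_Dis (A B : Set ι → Prop) : Inc (Dis A B) :=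
  fun _ _ h ⟨a, b, h1, h2, h3⟩ => ⟨a, b, h1.trans h, h2.trans h, h3⟩

lemma bk_rel (h0 : 0 ≤ p) (h1 : p ≤ 1) (R : Set ι → Set ι → Prop)
    (hR : ∀ a a' b b', a ⊆ a' → b ⊆ b' → R a b → R a' b') :
    Pr E p (fun ω => ∃ a b, a ⊆ ω ∧ b ⊆ ω ∧ Disjoint a b ∧ R a b) ≤
      Ex E p fun a => Ex E p fun b => ind (R a b) := by
  classical
  induction E using Finset.induction_on generalizing R with
  | empty =>
    unfold Pr
    simp only [Ex_empty]
    refine ind_mono ?_
    rintro ⟨a, b, ha, hb, -, h⟩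
    exact hR _ _ _ _ ha hb h
  | insert e E he ih =>
    have i0 := ih R hR
    have i1 := ih (fun a b => R (insert e a) b ∨ R a (insert e b)) (by
      rintro a a' b b' ha hb (h | h)
      · exact Or.inl (hR _ _ _ _ (Set.insert_subset_insert ha) hb h)
      · exact Or.inr (hR _ _ _ _ ha (Set.insert_subset_insert hb) h))
    have i2 : Ex E p (fun ω => ind (∃ a b, a ⊆ insert e ω ∧ b ⊆ insert e ω ∧ Disjoint a b ∧ R a b))
        ≤ Pr E p (fun ω => ∃ a b, a ⊆ ω ∧ b ⊆ ω ∧ Disjoint a b ∧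
          (R (insert e a) b ∨ R a (insert e b))) := by
      refine Ex_mono h0 h1 fun ω _ => ind_mono ?_
      rintro ⟨a, b, ha, hb, hd, h⟩
      refine ⟨a \ {e}, b \ {e}, Set.sdiff_singleton_subset_iff.2 ha,
        Set.sdiff_singleton_subset_iff.2 hb, hd.mono Set.sdiff_subset Set.sdiff_subset, ?_⟩
      by_cases hea : e ∈ a
      · have heb : e ∉ b := Set.disjoint_left.1 hd hea
        refine Or.inl (hR _ _ _ _ ?_ ?_ h)
        · rw [Set.insert_sdiff_singleton]; exact Set.subset_insert _ _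
        · rw [Set.sdiff_singleton_eq_self heb]
      · refine Or.inr (hR _ _ _ _ ?_ ?_ h)
        · rw [Set.sdiff_singleton_eq_self hea]
        · rw [Set.insert_sdiff_singleton]; exact Set.subset_insert _ _
    unfold Pr at i0 ⊢
    rw [Ex_insert he]
    have hp : 0 ≤ 1 - p := by linarith
    refine (add_le_add (mul_le_mul_of_nonneg_left (i2.trans i1) h0)
      (mul_le_mul_of_nonneg_left i0 hp)).trans ?_
    simp only [Ex_insert he, ← Ex_mul_left, ← Ex_add]
    refine Ex_mono h0 h1 fun a _ => Ex_mono h0 h1 fun b _ => ?_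
    have s1 : R a b → R (insert e a) b := hR _ _ _ _ (Set.subset_insert _ _) le_rfl
    have s2 : R a b → R a (insert e b) := hR _ _ _ _ le_rfl (Set.subset_insert _ _)
    have s3 : R (insert e a) b → R (insert e a) (insert e b) :=
      hR _ _ _ _ le_rfl (Set.subset_insert _ _)
    have s4 : R a (insert e b) → R (insert e a) (insert e b) :=
      hR _ _ _ _ (Set.subset_insert _ _) le_rfl
    have k := mul_nonneg h0 hp
    have k2 := mul_nonneg h0 h0
    by_cases c0 : R a b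
    · rw [ind_of c0, ind_of (s1 c0), ind_of (s2 c0), ind_of (s3 (s1 c0)), ind_of (Or.inl (s1 c0))]
      nlinarith
    rw [ind_of_not c0]
    by_cases c1 : R (insert e a) b
    · rw [ind_of c1, ind_of (s3 c1), ind_of (Or.inl c1)]
      nlinarith [mul_nonneg k (ind_nonneg (R a (insert e b)))]
    rw [ind_of_not c1]
    by_cases c2 : R a (insert e b)
    · rw [ind_of c2, ind_of (s4 c2), ind_of (Or.inr c2)]
      nlinarith
    · rw [ind_of_not c2, ind_of_not (not_or.2 ⟨c1, c2⟩)]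
      nlinarith [mul_nonneg k2 (ind_nonneg (R (insert e a) (insert e b)))]

/-- The BK inequality. -/
lemma bk (h0 : 0 ≤ p) (h1 : p ≤ 1) {A B : Set ι → Prop} (hA : Inc A) (hB : Inc B) :
    Pr E p (Dis A B) ≤ Pr E p A * Pr E p B := by
  refine (bk_rel h0 h1 (fun a b => A a ∧ B b)
    fun a a' b b' ha hb h => ⟨hA _ _ ha h.1, hB _ _ hb h.2⟩).trans (le_of_eq ?_)
  simp only [ind_and, Ex_mul_left, Ex_mul_right]
  rfl

/-- union bound -/
lemma ind_le_sum {κ : Type*} (s : Finset κ) {P : Prop} {F : κ → ℝ} (hF : ∀ k ∈ s, 0 ≤ F k)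
    (h : P → ∃ k ∈ s, 1 ≤ F k) : ind P ≤ ∑ k ∈ s, F k := by
  by_cases hP : P
  · obtain ⟨k, hk, h1⟩ := h hP
    rw [ind_of hP]
    exact h1.trans (Finset.single_le_sum hF hk)
  · rw [ind_of_not hP]; exact Finset.sum_nonneg hF

lemma Pr_le_sum (h0 : 0 ≤ p) (h1 : p ≤ 1) {κ : Type*} (s : Finset κ) {A : Set ι → Prop}
    (B : κ → Set ι → Prop) (h : ∀ ω : Set ι, ω ⊆ E → A ω → ∃ k ∈ s, B k ω) :
    Pr E p A ≤ ∑ k ∈ s, Pr E p (B k) := by
  unfold Pr
  rw [← Ex_sum]
  refine Ex_mono h0 h1 fun ω hω => ind_le_sum s (fun _ _ => ind_nonneg _) fun hA => ?_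
  obtain ⟨k, hk, hB⟩ := h ω hω hA
  exact ⟨k, hk, (ind_of hB).ge⟩

/-- The Margulis-Russo formula. -/
lemma russo (F : Set ι → ℝ) (p : ℝ) :
    HasDerivAt (fun t => Ex E t F)
      (∑ e ∈ E, Ex E p fun ω => F (insert e ω) - F (ω \ {e})) p := by
  classical
  induction E using Finset.induction_on generalizing F with
  | empty => simpa using hasDerivAt_const p (F ∅)
  | insert e E he ih =>
    simp only [Ex_insert he]
    have d := ((hasDerivAt_id p).mul (ih fun ω => F (insert e ω))).add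
      (((hasDerivAt_id p).const_sub 1).mul (ih F))
    refine HasDerivAt.congr_deriv d ?_
    symm
    rw [Finset.sum_insert he, Finset.sum_add_distrib, ← Finset.mul_sum, ← Finset.mul_sum]
    have e1 : Ex E p (fun ω => F (insert e (insert e ω)) - F (insert e ω \ {e})) =
        Ex E p (fun ω => F (insert e ω)) - Ex E p F := by
      rw [← Ex_sub]
      refine Ex_congr fun ω hω => ?_
      have : e ∉ ω := fun h => he (hω h)
      rw [Set.insert_eq_of_mem (Set.mem_insert _ _), Set.insert_sdiff_self_of_notMem this]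
    have e2 : Ex E p (fun ω => F (insert e ω) - F (ω \ {e})) =
        Ex E p (fun ω => F (insert e ω)) - Ex E p F := by
      rw [← Ex_sub]
      refine Ex_congr fun ω hω => ?_
      have : e ∉ ω := fun h => he (hω h)
      rw [Set.sdiff_singleton_eq_self this]
    have e3 : ∑ x ∈ E, Ex E p (fun ω => F (insert x (insert e ω)) - F (insert e ω \ {x})) =
        ∑ x ∈ E, Ex E p (fun ω => F (insert e (insert x ω)) - F (insert e (ω \ {x}))) := by
      refine Finset.sum_congr rfl fun x hx => Ex_congr fun ω _ => ?_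
      have : e ≠ x := fun h => he (h ▸ hx)
      rw [Set.insert_comm, Set.insert_sdiff_of_notMem _ (by simpa using this)]
    rw [e1, e2, e3]
    simp only [id]
    ring

/-- thinning -/
lemma Ex_thin (s : ℝ) (F : Set ι → ℝ) :
    Ex E (p * s) F = Ex E p fun ω => Ex E s fun η => F (ω ∩ η) := by
  classical
  induction E using Finset.induction_on generalizing F with
  | empty => simp
  | insert e E he ih =>
    simp only [Ex_insert he, ih, Ex_add, Ex_mul_left]
    have e1 : Ex E p (fun ω => Ex E s fun η => F (insert e ω ∩ insert e η)) =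
        Ex E p (fun ω => Ex E s fun η => F (insert e (ω ∩ η))) := by
      simp only [Set.insert_inter_distrib]
    have e2 : Ex E p (fun ω => Ex E s fun η => F (insert e ω ∩ η)) =
        Ex E p (fun ω => Ex E s fun η => F (ω ∩ η)) :=
      Ex_congr fun ω _ => Ex_congr fun η hη => by
        rw [Set.insert_inter_of_notMem fun h => he (hη h)]
    have e3 : Ex E p (fun ω => Ex E s fun η => F (ω ∩ insert e η)) =
        Ex E p (fun ω => Ex E s fun η => F (ω ∩ η)) :=
      Ex_congr fun ω hω => Ex_congr fun η _ => by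
        rw [Set.inter_insert_of_notMem fun h => he (hω h)]
    rw [e1, e2, e3]
    ring

lemma exists_thin {p' : ℝ} (h0 : 0 ≤ p') (h : p' ≤ p) : ∃ s, 0 ≤ s ∧ s ≤ 1 ∧ p' = p * s := by
  rcases (h0.trans h).eq_or_lt with h2 | h2
  · exact ⟨0, le_rfl, zero_le_one, by linarith⟩
  · exact ⟨p' / p, by positivity, (div_le_one h2).2 h, by field_simp⟩

lemma Pr_mono_p {p' : ℝ} (h0 : 0 ≤ p') (h : p' ≤ p) (h1 : p ≤ 1) {A : Set ι → Prop} (hA : Inc A) :
    Pr E p' A ≤ Pr E p A := by
  obtain ⟨s, s0, s1, rfl⟩ := exists_thin h0 h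
  unfold Pr
  rw [Ex_thin]
  exact Ex_mono (h0.trans h) h1 fun ω _ => Ex_le_const s0 s1 fun η _ =>
    ind_mono (hA _ _ Set.inter_subset_left)

/-- events with small witnesses -/
lemma Pr_thin {p' r : ℝ} (h0 : 0 < p') (h : p' ≤ p) (h1 : p ≤ 1) (hr : p ≤ r * p') (l : ℕ)
    {A B : Set ι → Prop} (hB : Inc B)
    (hA : ∀ ω : Set ι, A ω → ∃ γ : Finset ι, (γ : Set ι) ⊆ ω ∧ γ.card ≤ l ∧ B γ) :
    Pr E p A ≤ r ^ l * Pr E p' B := by
  have hp : 0 < p := h0.trans_le h
  have e : p' = p * (p' / p) := by field_simp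
  have s0 : 0 ≤ p' / p := by positivity
  have s1 : p' / p ≤ 1 := (div_le_one hp).2 h
  have r0 : 0 < r := by nlinarith
  have hrs : 1 ≤ r * (p' / p) := by rw [← mul_div_assoc, one_le_div hp]; exact hr
  unfold Pr
  rw [e, Ex_thin, ← Ex_mul_left]
  refine Ex_mono hp.le h1 fun ω hω => ?_
  by_cases c : A ω
  swap
  · rw [ind_of_not c]
    exact mul_nonneg (by positivity) (Ex_nonneg s0 s1 fun _ _ => ind_nonneg _)
  obtain ⟨γ, g1, g2, g3⟩ := hA ω c
  have i1 : Pr E (p' / p) (fun η => (γ : Set ι) ⊆ η) ≤ Pr E (p' / p) fun η => B (ω ∩ η) :=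
    Pr_mono s0 s1 fun η _ hη => hB _ _ (Set.subset_inter g1 hη) g3
  rw [Pr_all_open (Finset.coe_subset.1 (g1.trans hω))] at i1
  have i2 := (pow_le_pow_of_le_one s0 s1 g2).trans i1
  rw [ind_of c]
  calc (1 : ℝ) ≤ (r * (p' / p)) ^ l := one_le_pow₀ hrs
    _ = r ^ l * (p' / p) ^ l := mul_pow _ _ _
    _ ≤ _ := mul_le_mul_of_nonneg_left i2 (by positivity)

/-- finite energy: opening a closed edge -/
lemma Pr_open_edge (h0 : 0 ≤ p) (h1 : p ≤ 1) {e : ι} (he : e ∈ E) {A : Set ι → Prop}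
    (hA : ∀ ω, A ω → e ∉ ω) : p * Pr E p A ≤ Pr E p fun ω => e ∈ ω ∧ A (ω \ {e}) := by
  classical
  rw [← Finset.insert_erase he]
  have he' := Finset.notMem_erase e E
  unfold Pr
  rw [Ex_insert he', Ex_insert he']
  have e1 : Ex (E.erase e) p (fun ω => ind (A (insert e ω))) = 0 := by
    rw [Ex_congr (G := fun _ => 0), Ex_const]
    exact fun ω _ => ind_of_not fun h => hA _ h (Set.mem_insert _ _)
  have e2 : Ex (E.erase e) p (fun ω => ind (e ∈ insert e ω ∧ A (insert e ω \ {e}))) =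
      Ex (E.erase e) p fun ω => ind (A ω) := by
    refine Ex_congr fun ω hω => ind_congr ?_
    have : e ∉ ω := fun h => he' (hω h)
    rw [Set.insert_sdiff_self_of_notMem this]
    simp
  have i1 : 0 ≤ Ex (E.erase e) p fun ω => ind (A ω) := Pr_nonneg h0 h1 _
  have i2 : 0 ≤ Ex (E.erase e) p fun ω => ind (e ∈ ω ∧ A (ω \ {e})) := Pr_nonneg h0 h1 _
  rw [e1, e2]
  nlinarith [mul_nonneg (mul_nonneg h0 h0) i1, mul_nonneg (sub_nonneg.2 h1) i2]

/-- mean value inequalities -/
lemma le_sub_of_deriv {f f' : ℝ → ℝ} (hf : ∀ t, HasDerivAt f (f' t) t) {a b c : ℝ} (hab : a ≤ b)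
    (hc : ∀ t, a ≤ t → t ≤ b → c ≤ f' t) : c * (b - a) ≤ f b - f a := by
  rcases hab.eq_or_lt with rfl | hab
  · simp
  obtain ⟨t, ht, h⟩ := exists_hasDerivAt_eq_slope f f' hab
    (fun t _ => (hf t).continuousAt.continuousWithinAt) fun t _ => hf t
  have := hc t ht.1.le ht.2.le
  rwa [h, le_div_iff₀ (sub_pos.2 hab)] at this

lemma sub_le_of_deriv {f f' : ℝ → ℝ} (hf : ∀ t, HasDerivAt f (f' t) t) {a b c : ℝ} (hab : a ≤ b)
    (hc : ∀ t, a ≤ t → t ≤ b → f' t ≤ c) : f b - f a ≤ c * (b - a) := by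
  have := le_sub_of_deriv (f := fun t => - f t) (f' := fun t => - f' t) (c := - c)
    (fun t => (hf t).neg) hab fun t h1 h2 => neg_le_neg (hc t h1 h2)
  linarith

/-- bootstrapping a quadratic differential inequality -/
lemma bootstrap (P : ℝ → ℝ → Prop) {Δ L B p t : ℝ} (hΔ : 0 < Δ) (hB : 0 < B)
    (hmono : ∀ s b b', b ≤ b' → P s b → P s b') (hL : ∀ s, p ≤ s → s ≤ t → P s L)
    (hstep : ∀ s s' b b', p ≤ s → s ≤ s' → s' ≤ t → P s b → P s' b' →
      P s' (b + Δ * b' ^ 2 * (s' - s)))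
    (hp : P p B) (hpt : p ≤ t) (ht : t - p ≤ 1 / (8 * Δ * B)) : P t (2 * B) := by
  obtain ⟨n, hn⟩ := exists_nat_gt (2 * (Δ * L ^ 2 * (t - p)) / B)
  have hw : 0 ≤ t - p := sub_nonneg.2 hpt
  have hn0 : (0 : ℝ) < n := lt_of_le_of_lt (by positivity) hn
  rw [div_lt_iff₀ hB] at hn
  rw [le_div_iff₀ (by positivity)] at ht
  set h := (t - p) / n with hh
  have h0 : 0 ≤ h := by positivity
  have hnh : n * h = t - p := by rw [hh]; field_simp
  have key : ∀ j : ℕ, j ≤ n → P (p + j * h) (B + 4 * Δ * B ^ 2 * (j * h)) := by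
    intro j
    induction j with
    | zero => intro _; simpa using hp
    | succ j ih =>
      intro hj
      have ih := ih (by omega)
      have hj' : ((j + 1 : ℕ) : ℝ) * h ≤ t - p := by
        rw [← hnh]; exact mul_le_mul_of_nonneg_right (by exact_mod_cast hj) h0
      have hj0 : (0 : ℝ) ≤ j * h := by positivity
      push_cast at hj' ⊢
      have a1 : p ≤ p + j * h := by linarith
      have a2 : p + j * h ≤ p + (j + 1) * h := by linarith
      have a3 : p + (j + 1) * h ≤ t := by linarith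
      have s1 := hstep _ _ _ _ a1 a2 a3 ih (hL _ (a1.trans a2) a3)
      have s2 := hmono _ _ (2 * B) (by
        have b1 : 4 * Δ * B ^ 2 * (j * h) ≤ B / 2 := by
          have : j * h ≤ t - p := by linarith
          nlinarith [mul_le_mul_of_nonneg_left this (show 0 ≤ 4 * Δ * B ^ 2 by positivity)]
        have b2 : Δ * L ^ 2 * h ≤ B / 2 := by
          rw [← hnh] at hn
          nlinarith
        have : p + (j + 1) * h - (p + j * h) = h := by ring
        rw [this]; linarith) s1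
      exact hmono _ _ _ (le_of_eq (by ring)) (hstep _ _ _ _ a1 a2 a3 ih s2)
  have := key n le_rfl
  rw [hnh, add_sub_cancel] at this
  exact hmono _ _ _ (by nlinarith) this

end Vale.Agent.P165
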