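import Mathlib

open MeasureTheory ProbabilityTheory

namespace Vale.Agent.P165

/-- Bernoulli bond percolation on `G`: each edge is open independently with probability `p`. -/
noncomputable def perc {V : Type*} (G : SimpleGraph V) (p : unitInterval) :
    Measure (Set (Sym2 V)) :=
  setBernoulli G.edgeSet p

/-- The number of infinite connected components of the open subgraph. -/
noncomputable def numInf {V : Type*} (ω : Set (Sym2 V)) : ℕ∞ :=
  {C : (SimpleGraph.fromEdgeSet ω).ConnectedComponent | C.supp.Infinite}.encard

/-- The critical probability. -/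
noncomputable def pc {V : Type*} (G : SimpleGraph V) : unitInterval :=
  sInf {p | 0 < perc G p {ω | 1 ≤ numInf ω}}

/-- The uniqueness threshold. -/
noncomputable def pu {V : Type*} (G : SimpleGraph V) : unitInterval :=
  sInf {p | perc G p {ω | numInf ω = 1} = 1}

/-- The outer vertex boundary. -/
def vBdry {V : Type*} (G : SimpleGraph V) (A : Finset V) : Set V :=
  {v | v ∉ A ∧ ∃ u ∈ A, G.Adj u v}

/-- The vertex-isoperimetric constant. -/
noncomputable def hV {V : Type*} (G : SimpleGraph V) : ℝ :=
  sInf {r | ∃ A : Finset V, A.Nonempty ∧ r = ((vBdry G A).ncard : ℝ) / A.card}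

end Vale.Agent.P165
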