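import Vale.Agent.P165.Star

/-!
Escape from finite sets.
-/

namespace Vale.Agent.P165

open Vale.Agent.P151

variable {V : Type*} {G : SimpleGraph V} {E E' : Finset (Sym2 V)} {p t : ℝ} {x y z : V} {Δ D : ℕ}

/-- all but a fraction `θ` of the points of any finite set escape it with probability `q` -/
def Es (G : SimpleGraph V) (p θ q : ℝ) : Prop :=
  ∀ W : Finset V, ∃ W' : Finset V, (W'.card : ℝ) ≤ θ * W.card ∧ ∀ E, Sub G E →
    G.edgeSet ∩ touch (W : Set V) ⊆ E → ∀ x ∈ W, x ∉ W' →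
      q ≤ Pr E p fun ω => Link ω {x} (W : Set V)ᶜ

/-- the same with short connections -/
def SE (G : SimpleGraph V) (p : ℝ) (l : ℕ) (θ q : ℝ) : Prop :=
  ∀ W : Finset V, ∃ W' : Finset V, (W'.card : ℝ) ≤ θ * W.card ∧ ∀ E, Sub G E →
    G.edgeSet ∩ touch (W : Set V) ⊆ E → ∀ x ∈ W, x ∉ W' →
      q ≤ Pr E p fun ω => SLink l ω x (W : Set V)ᶜ

/-- vertex nonamenability -/
def NA (G : SimpleGraph V) (h : ℝ) : Prop :=
  ∀ A W : Finset V, A ⊆ W → (∀ u ∈ A, ∀ v, G.Adj u v → v ∈ W) → (1 + h) * A.card ≤ W.card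

variable {θ θ' q q' : ℝ}

lemma exists_touch_sub (hG : DegLe G Δ) (W : Finset V) :
    ∃ E, Sub G E ∧ G.edgeSet ∩ touch (W : Set V) ⊆ E := by
  classical
  obtain ⟨F, -, hF⟩ := hG.exists_touch W
  exact ⟨F.filter (· ∈ G.edgeSet), fun e he => (Finset.mem_filter.1 he).2,
    fun e he => Finset.mem_filter.2 ⟨hF he, he.1⟩⟩

lemma link_local (h0 : 0 ≤ p) (h1 : p ≤ 1) {W : Set V} (hE' : Sub G E')
    (hE : G.edgeSet ∩ touch W ⊆ E) (hx : x ∈ W) :
    Pr E' p (fun ω => Link ω {x} Wᶜ) ≤ Pr E p fun ω => Link ω {x} Wᶜ := by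
  refine Pr_couple h0 h1 fun ω h => ?_
  obtain ⟨y, hy, hc⟩ := link_singleton.1 h
  obtain ⟨a, ha, b, hb, he, hc⟩ := hc.first_exit hx hy
  exact link_singleton.2 ⟨b, hb, Conn.tail
    (hc.mono fun e he => ⟨he.1.1, hE ⟨hE' he.1.2, inside_subset_touch he.2⟩⟩)
    ⟨he.1, hE ⟨hE' he.2, mem_touch_iff.2 (Or.inl ha)⟩⟩⟩

lemma Es.mono (h : Es G p θ q) (hθ : θ ≤ θ') (hq : q' ≤ q) : Es G p θ' q' := fun W => by
  obtain ⟨W', h1, h2⟩ := h W
  exact ⟨W', h1.trans (mul_le_mul_of_nonneg_right hθ (by positivity)),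
    fun E a b x c d => hq.trans (h2 E a b x c d)⟩

lemma SE.mono {l : ℕ} (h : SE G p l θ q) (h0 : 0 ≤ p) (hp : p ≤ t) (h1 : t ≤ 1) (hq : q' ≤ q) :
    SE G t l θ q' := fun W => by
  obtain ⟨W', a1, h2⟩ := h W
  exact ⟨W', a1, fun E a b x c d =>
    hq.trans ((h2 E a b x c d).trans (Pr_mono_p h0 hp h1 (inc_slink _ _ _)))⟩

lemma Pr_link_self {T : Set V} (hx : x ∈ T) : Pr E p (fun ω => Link ω {x} T) = 1 := by
  unfold Pr
  rw [Ex_congr (G := fun _ => 1) fun ω _ => ind_of ⟨x, rfl, x, hx, Conn.refl _ _⟩, Ex_const]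

lemma Es.mul (h : Es G p θ q) (h' : Es G p θ' q') (h0 : 0 ≤ p) (h1 : p < 1) (hθ : 0 ≤ θ')
    (q0 : 0 ≤ q) (q1 : q ≤ 1) (q2 : q' ≤ 1) : Es G p (θ' * θ) (q' * q) := by
  classical
  intro W
  obtain ⟨W₁, a1, a2⟩ := h W
  obtain ⟨W₂, b1, b2⟩ := h' (W₁ ∩ W)
  have c1 : ((W₁ ∩ W).card : ℝ) ≤ W₁.card := by
    exact_mod_cast Finset.card_le_card Finset.inter_subset_left
  refine ⟨W₂, b1.trans ?_, fun E hE hW x hx hx' => ?_⟩
  · rw [mul_assoc]; exact mul_le_mul_of_nonneg_left (c1.trans a1) hθ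
  by_cases hx1 : x ∈ W₁
  · have i1 := b2 E hE ((Set.inter_subset_inter_right _ (touch_mono (by simp))).trans hW) x
      (Finset.mem_inter.2 ⟨hx1, hx⟩) hx'
    rw [mul_comm]
    refine (mul_le_mul_of_nonneg_left i1 q0).trans (glue_link h0 h1 x _ _ fun a ha => ?_)
    by_cases haW : a ∈ W
    · exact a2 E hE hW a haW fun h => ha (Finset.mem_coe.2 (Finset.mem_inter.2 ⟨h, haW⟩))
    · rwa [Pr_link_self (show a ∈ (W : Set V)ᶜ from haW)]
  · exact (mul_le_of_le_one_left q0 q2).trans (a2 E hE hW x hx hx1)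

lemma Es.pow (h : Es G p θ q) (h0 : 0 ≤ p) (h1 : p < 1) (hθ : 0 ≤ θ) (q0 : 0 ≤ q) (q1 : q ≤ 1)
    (k : ℕ) : Es G p (θ ^ k) (q ^ k) := by
  induction k with
  | zero => exact fun W => ⟨W, by simp, fun _ _ _ x hx hx' => absurd hx hx'⟩
  | succ k ih =>
    rw [pow_succ, pow_succ]
    exact h.mul ih h0 h1 (pow_nonneg hθ _) q0 q1 (pow_le_one₀ q0 q1)

lemma NA.es {h : ℝ} (hG : NA G h) (hh : 0 < h) (h0 : 0 ≤ p) (h1 : p ≤ 1) :
    Es G p (1 / (1 + h)) p := by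
  classical
  intro W
  refine ⟨W.filter fun u => ∀ v, G.Adj u v → v ∈ W, ?_, fun E _ hE x hx hx' => ?_⟩
  · rw [one_div_mul_eq_div, le_div_iff₀ (by linarith), mul_comm]
    exact hG _ W (Finset.filter_subset _ _) fun u hu => (Finset.mem_filter.1 hu).2
  · simp only [Finset.mem_filter, hx, true_and, not_forall] at hx'
    obtain ⟨v, hv, hv'⟩ := hx'
    have := Pr_all_open (p := p) (D := {s(x, v)}) (E := E)
      (Finset.singleton_subset_iff.2 (hE ⟨hv, mem_touch_iff.2 (Or.inl hx)⟩))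
    rw [Finset.card_singleton, pow_one] at this
    rw [← this]
    conv_rhs => rw [this]
    exact Pr_mono h0 h1 fun ω _ h => ⟨x, rfl, v, hv', Conn.single (h (by simp))⟩

lemma Es.se (h : Es G p θ q) (hG : DegLe G Δ) (h0 : 0 ≤ p) (h1 : p ≤ 1) {N : ℕ}
    (hN : ∀ E, Sub G E → Fam E p N) (j : ℕ) : SE G p (j * (N * Δ + 1)) θ (q - (1 / 2) ^ j) := by
  intro W
  obtain ⟨W', a1, a2⟩ := h W
  refine ⟨W', a1, fun E hE hW x hx hx' => ?_⟩
  linarith [a2 E hE hW x hx hx', (hN E hE).short hG hE h0 h1 j x (W : Set V)ᶜ]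

lemma sum_tree {X : ℝ} (hB : Bnd G p X) (hE : Sub G E) (h0 : 0 ≤ p) (h1 : p ≤ 1) {Λ : Finset V}
    (hΛ : verts E ⊆ Λ) (hx : x ∈ Λ) (S : Finset V) :
    ∑ y ∈ Λ, ∑ s ∈ S, Pr E p (fun ω => Conn ω x y ∧ Conn ω x s) ≤
      X * ∑ b ∈ Λ, tau E p x b * ∑ s ∈ S, tau E p b s := by
  refine (Finset.sum_le_sum fun y _ => Finset.sum_le_sum fun s _ => tree_ineq h0 h1 hΛ hx).trans ?_
  conv_lhs => enter [2, y]; rw [Finset.sum_comm]
  rw [Finset.sum_comm, Finset.mul_sum]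
  refine Finset.sum_le_sum fun b _ => ?_
  simp only [← Finset.mul_sum, ← Finset.sum_mul]
  rw [mul_left_comm X]
  exact mul_le_mul_of_nonneg_left (mul_le_mul_of_nonneg_right (hB E hE b Λ)
    (Finset.sum_nonneg fun _ _ => tau_nonneg h0 h1)) (tau_nonneg h0 h1)

lemma tau_split (A : Set (Sym2 V) → Prop) : tau E p x y =
    Pr E p (fun ω => Conn ω x y ∧ A ω) + Pr E p fun ω => Conn ω x y ∧ ¬ A ω := by
  unfold tau Pr
  rw [← Ex_add]
  exact Ex_congr fun ω _ => by rw [ind_and, ind_and, ind_not]; ring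

lemma sum_and_le {X N : ℝ} (hB : Bnd G p X) (hE : Sub G E) (h0 : 0 ≤ p) (h1 : p ≤ 1)
    {Λ : Finset V} (hΛ : verts E ⊆ Λ) (hx : x ∈ Λ) (hN : 0 < N) (A : Set (Sym2 V) → Prop) :
    ∑ y ∈ Λ, Pr E p (fun ω => Conn ω x y ∧ A ω) ≤ X ^ 3 / N + N * Pr E p A := by
  have X0 : 0 ≤ X := zero_le_one.trans (hB.one_le x)
  have i1 : ∑ y ∈ Λ, ∑ s ∈ Λ, Pr E p (fun ω => Conn ω x y ∧ Conn ω x s) ≤ X ^ 3 := by
    refine (sum_tree hB hE h0 h1 hΛ hx Λ).trans ?_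
    rw [pow_succ']
    refine mul_le_mul_of_nonneg_left ((Finset.sum_le_sum fun b _ =>
      mul_le_mul_of_nonneg_left (hB E hE b Λ) (tau_nonneg h0 h1)).trans ?_) X0
    rw [← Finset.sum_mul, sq]
    exact mul_le_mul_of_nonneg_right (hB E hE x Λ) X0
  refine le_trans ?_ (add_le_add (div_le_div_of_nonneg_right i1 hN.le) le_rfl)
  unfold Pr
  simp only [← Ex_sum]
  rw [div_eq_mul_inv, ← Ex_mul_right, ← Ex_mul_left, ← Ex_add]
  refine Ex_mono h0 h1 fun ω _ => ?_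
  simp only [ind_and, ← Finset.sum_mul, ← Finset.mul_sum]
  set k := ∑ y ∈ Λ, ind (Conn ω x y)
  have k0 : 0 ≤ k := Finset.sum_nonneg fun _ _ => ind_nonneg _
  by_cases c : A ω
  · rw [ind_of c, mul_one, mul_one, ← sub_le_iff_le_add, ← div_eq_mul_inv, le_div_iff₀ hN]
    nlinarith [sq_nonneg (k - N)]
  · rw [ind_of_not c, mul_zero, mul_zero, add_zero]; positivity

lemma improve (hG : DegLe G Δ) (h0 : 0 < p) (h1 : p ≤ 1) {X c M : ℝ} {l : ℕ} (hB : Bnd G p X)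
    (hL : Low G p (c * X)) (X0 : 0 < X) (c0 : 0 < c) (c1 : c ≤ 1) (hM : SBnd G p l M)
    (hS : SE G p l θ q) (q0 : 0 < q) (hn : (l + 1) * M ≤ p * q * X ^ 2) :
    Es G p (4 * θ / c) (c ^ 2 / (10 * X)) := by
  classical
  intro W
  obtain ⟨W', a1, a2⟩ := hS W
  obtain ⟨E₁, b1, b2⟩ := exists_touch_sub hG W
  obtain ⟨F, hF, b3, Λ, b4, b5, b6⟩ := hL.common h0.le h1 b1 W
  have b7 : G.edgeSet ∩ touch (W : Set V) ⊆ F := b2.trans (Finset.coe_subset.2 b3)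
  refine ⟨W.filter fun x => c * X / 4 < ∑ z ∈ W', tau F p x z, ?_, fun E hE hW x hx hx' => ?_⟩
  · have i1 := Finset.card_nsmul_le_sum _ _ _
      fun x (hx : x ∈ W.filter fun x => c * X / 4 < ∑ z ∈ W', tau F p x z) =>
        (Finset.mem_filter.1 hx).2.le
    rw [Finset.sum_comm, nsmul_eq_mul] at i1
    have i2 := Finset.sum_le_card_nsmul W' _ X fun z _ => (le_of_eq
      (Finset.sum_congr rfl fun x _ => tau_symm x z)).trans (hB F hF z
        (W.filter fun x => c * X / 4 < ∑ z ∈ W', tau F p x z))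
    rw [nsmul_eq_mul] at i2
    rw [div_mul_eq_mul_div, le_div_iff₀ c0]
    refine le_of_mul_le_mul_right ?_ X0
    nlinarith [mul_le_mul_of_nonneg_right a1 X0.le]
  refine le_trans ?_ (link_local h0.le h1 hF hW hx)
  simp only [Finset.mem_filter, hx, true_and, not_lt] at hx'
  set P := Pr F p fun ω => Link ω {x} (W : Set V)ᶜ with hP
  have P0 : 0 ≤ P := Pr_nonneg h0.le h1 _
  have i1 := sum_and_le hB hF h0.le h1 b5 (b4 hx) (N := 4 * X ^ 2 / c) (by positivity)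
    fun ω => Link ω {x} (W : Set V)ᶜ
  have i2 := star hF h0.le h1 hM x (W : Set V)ᶜ Λ
  have i3 : q * ∑ y ∈ Λ, Pr F p (fun ω => Conn ω x y ∧ ¬ Link ω {x} (W : Set V)ᶜ) ≤
      q * ∑ y ∈ Λ, (if y ∈ W' then tau F p x y else 0) + ∑ y ∈ Λ,
        Pr F p (fun ω => Conn ω x y ∧ ¬ Link ω {x} (W : Set V)ᶜ) *
          Pr F p (fun ω => SLink l ω y (W : Set V)ᶜ) := by
    rw [Finset.mul_sum, Finset.mul_sum, ← Finset.sum_add_distrib]
    refine Finset.sum_le_sum fun y _ => ?_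
    have j0 := Pr_nonneg (E := F) h0.le h1 fun ω => Conn ω x y ∧ ¬ Link ω {x} (W : Set V)ᶜ
    have j1 := mul_nonneg j0 (Pr_nonneg (E := F) h0.le h1 fun ω => SLink l ω y (W : Set V)ᶜ)
    split_ifs with c1
    · refine le_add_of_le_of_nonneg (mul_le_mul_of_nonneg_left ?_ q0.le) j1
      exact Pr_mono h0.le h1 fun _ _ h => h.1
    rw [mul_zero, zero_add, mul_comm]
    by_cases c2 : y ∈ W
    · exact mul_le_mul_of_nonneg_left (a2 F hF b7 y c2 c1) j0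
    · refine le_trans (mul_nonpos_of_nonpos_of_nonneg (Ex_le_const h0.le h1 fun ω _ => ?_) q0.le) j1
      exact (ind_of_not fun h => h.2 ⟨x, rfl, y, c2, h.1⟩).le
  have i4 : ∑ y ∈ Λ, (if y ∈ W' then tau F p x y else 0) ≤ c * X / 4 := by
    rw [Finset.sum_ite_mem]
    exact (sum_tau_mono h0.le le_rfl h1 le_rfl Finset.inter_subset_right).trans hx'
  have i5 := b6 x hx
  rw [Finset.sum_congr rfl fun y _ => tau_split (fun ω => Link ω {x} (W : Set V)ᶜ),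
    Finset.sum_add_distrib] at i5
  rw [← hP] at i1 i2
  have i6 := le_of_mul_le_mul_left ((i2.trans (mul_le_mul_of_nonneg_right hn P0)).trans
    (le_of_eq (by ring : _ = p * (q * (X ^ 2 * P))))) h0
  have i7 := le_of_mul_le_mul_left ((i3.trans (add_le_add (mul_le_mul_of_nonneg_left i4 q0.le)
    i6)).trans (le_of_eq (mul_add _ _ _).symm)) q0
  have e1 : X ^ 3 / (4 * X ^ 2 / c) = c * X / 4 := by field_simp
  rw [e1] at i1
  have i8 : X ^ 2 * P ≤ X ^ 2 / c * P :=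
    mul_le_mul_of_nonneg_right (le_div_self (by positivity) c0 c1) P0
  have i9 : c * X / 2 ≤ 5 * (X ^ 2 / c) * P := by
    rw [mul_div_assoc 4] at i1
    linarith
  rw [div_le_iff₀ (by positivity)]
  have e2 : 5 * (X ^ 2 / c) * P = P * (10 * X) * X / (2 * c) := by field_simp; ring
  rw [e2, le_div_iff₀ (by positivity)] at i9
  refine le_of_mul_le_mul_right ?_ X0
  linarith

end Vale.Agent.P165
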