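import Vale.Agent.P165.Escape

/-!
Every finite set has a point whose cluster meets it sparsely.
-/

namespace Vale.Agent.P165

open Vale.Agent.P151

variable {V : Type*} {G : SimpleGraph V} {E E' : Finset (Sym2 V)} {p t : ℝ} {x y z : V} {Δ D : ℕ}

lemma count_targets {l : ℕ} {ω : Set (Sym2 V)} (S Z : Finset V) (T : Set V) {v : ℝ} (v0 : 0 < v)
    (hZ : ∀ x ∈ S, ∀ z ∈ T, SConn l ω x z → z ∈ Z) :
    ∑ x ∈ S, ind (SLink l ω x T) ≤ v * ∑ z ∈ Z, ind (SLink l ω z S) +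
      (∑ x ∈ S, ∑ x' ∈ S, ind (SConn (l + l) ω x' x)) / v := by
  set N : V → ℝ := fun z => ∑ x ∈ S, ind (SConn l ω x z) with hN
  have i1 : ∀ x ∈ S, ind (SLink l ω x T) ≤ ∑ z ∈ Z, ind (SConn l ω x z) * ind (N z ≤ v) +
      (∑ x' ∈ S, ind (SConn (l + l) ω x' x)) / v := by
    intro x hx
    have a0 : 0 ≤ ∑ z ∈ Z, ind (SConn l ω x z) * ind (N z ≤ v) :=
      Finset.sum_nonneg fun _ _ => mul_nonneg (ind_nonneg _) (ind_nonneg _)
    have a1 : 0 ≤ (∑ x' ∈ S, ind (SConn (l + l) ω x' x)) / v :=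
      div_nonneg (Finset.sum_nonneg fun _ _ => ind_nonneg _) v0.le
    by_cases c : v ≤ ∑ x' ∈ S, ind (SConn (l + l) ω x' x)
    · linarith [ind_le_one (SLink l ω x T), (one_le_div v0).2 c]
    refine le_add_of_le_of_nonneg (ind_le_sum Z
      (fun _ _ => mul_nonneg (ind_nonneg _) (ind_nonneg _)) fun ⟨z, hz, h⟩ =>
        ⟨z, hZ x hx z hz h, ?_⟩) a1
    rw [ind_of h, ind_of, one_mul]
    exact (Finset.sum_le_sum fun x' _ => ind_mono fun h' => h'.trans h.symm).trans (not_le.1 c).le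
  refine (Finset.sum_le_sum i1).trans ?_
  rw [Finset.sum_add_distrib, Finset.sum_comm, ← Finset.sum_div, Finset.mul_sum]
  refine add_le_add (Finset.sum_le_sum fun z _ => ?_) le_rfl
  rw [← Finset.sum_mul]
  change N z * _ ≤ _
  by_cases c : SLink l ω z S
  · rw [ind_of c, mul_one]
    by_cases c' : N z ≤ v
    · rwa [ind_of c', mul_one]
    · rw [ind_of_not c', mul_zero]; exact v0.le
  · rw [ind_of_not c, mul_zero, show N z = 0 from Finset.sum_eq_zero fun x hx =>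
      ind_of_not fun h => c ⟨x, hx, h.symm⟩, zero_mul]

lemma fat (hG : DegLe G Δ) (h0 : 0 < p) (h1 : p < 1) {X c M θ q : ℝ} {l : ℕ} (hB : Bnd G p X)
    (hL : Low G p (c * X)) (X0 : 0 < X) (c0 : 0 < c) (hM : SBnd G p (l + l) M) (M0 : 0 < M)
    (hS : SE G p l θ q) (q0 : 0 < q) (θ0 : 0 ≤ θ) (hθ : θ * (1 + 2 * X ^ 2 / c) ≤ 1 / 2)
    (hE : Sub G E) (S : Finset V) (hne : S.Nonempty) :
    ∃ x ∈ S, ∑ y ∈ S, tau E p x y ≤ 32 * ((l + 1) * M ^ 2) / (p * c * q ^ 2) := by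
  classical
  obtain ⟨x₀, hx₀, hmin⟩ := S.exists_min_image (fun x => ∑ y ∈ S, tau E p x y) hne
  refine ⟨x₀, hx₀, ?_⟩
  set σ := ∑ y ∈ S, tau E p x₀ y with hσ
  have σ0 : 0 ≤ σ := Finset.sum_nonneg fun _ _ => tau_nonneg h0.le h1.le
  have hf := hG.finite_Nb S.finite_toSet l
  obtain ⟨E₁, b1, b2⟩ := exists_touch_sub hG hf.toFinset
  obtain ⟨F, hF, b3, Λ, b4, b5, b6⟩ := hL.common h0.le h1.le (hE.union b1) hf.toFinset
  have τ0 : ∀ x y, 0 ≤ tau F p x y := fun _ _ => tau_nonneg h0.le h1.le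
  have row : ∀ (x : V) (A : Finset V), ∑ y ∈ A, tau F p y x ≤ X := fun x A =>
    (le_of_eq (Finset.sum_congr rfl fun y _ => tau_symm y x)).trans (hB F hF x A)
  have col : ∀ A : Finset V, ∑ b ∈ A, ∑ s ∈ S, tau F p b s ≤ S.card * X := fun A => by
    rw [Finset.sum_comm, ← nsmul_eq_mul]
    exact Finset.sum_le_card_nsmul _ _ _ fun s _ => row s A
  set T2 : V → ℝ := fun z => ∑ b ∈ Λ, tau F p z b * ∑ s ∈ S, tau F p b s with hT2
  set A := hf.toFinset.filter fun z => c / 2 ≤ T2 z with hA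
  have n0 : (0 : ℝ) < S.card := by exact_mod_cast hne.card_pos
  have i1 : ((S ∪ A).card : ℝ) ≤ (1 + 2 * X ^ 2 / c) * S.card := by
    have j1 := Finset.card_nsmul_le_sum _ _ _ fun z (hz : z ∈ A) => (Finset.mem_filter.1 hz).2
    have j2 : ∑ z ∈ A, T2 z ≤ X * (S.card * X) := by
      simp only [hT2]
      rw [Finset.sum_comm]
      refine le_trans (Finset.sum_le_sum fun b _ => ?_)
        ((Finset.mul_sum _ _ _).symm.trans_le (mul_le_mul_of_nonneg_left (col Λ) X0.le))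
      rw [← Finset.sum_mul]
      exact mul_le_mul_of_nonneg_right (row b A) (Finset.sum_nonneg fun _ _ => τ0 _ _)
    have j3 : ((S ∪ A).card : ℝ) ≤ S.card + A.card := by exact_mod_cast Finset.card_union_le _ _
    have j4 : (A.card : ℝ) ≤ 2 * X ^ 2 / c * S.card := by
      rw [div_mul_eq_mul_div, le_div_iff₀ c0]
      rw [nsmul_eq_mul] at j1
      linarith
    linarith
  obtain ⟨W', a1, a2⟩ := hS (S ∪ A)
  have hSA : ((S ∪ A : Finset V) : Set V) ⊆ hf.toFinset := by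
    rw [Finset.coe_union]
    exact Set.union_subset (by simpa using subset_Nb) (Finset.coe_subset.2 (Finset.filter_subset _ _))
  have a3 := a2 F hF ((Set.inter_subset_inter_right _ (touch_mono hSA)).trans
    (b2.trans (Finset.coe_subset.2 (Finset.subset_union_right.trans b3))))
  have i2 : q * S.card / 2 ≤
      ∑ x ∈ S, Pr F p fun ω => SLink l ω x ((S ∪ A : Finset V) : Set V)ᶜ := by
    have j1 := Finset.card_nsmul_le_sum _ _ _ fun x (hx : x ∈ S \ W') =>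
      a3 x (Finset.mem_union_left _ (Finset.mem_sdiff.1 hx).1) (Finset.mem_sdiff.1 hx).2
    refine le_trans ?_ (j1.trans (Finset.sum_le_sum_of_subset_of_nonneg Finset.sdiff_subset
      fun _ _ _ => Pr_nonneg h0.le h1.le _))
    have j2 : (S.card : ℝ) ≤ (S \ W').card + W'.card := by
      exact_mod_cast Finset.card_le_card_sdiff_add_card
    have j3 := mul_le_mul_of_nonneg_left i1 θ0
    rw [nsmul_eq_mul]
    nlinarith [mul_le_mul_of_nonneg_right hθ n0.le]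
  set Z := hf.toFinset \ (S ∪ A) with hZ
  set Ξ := ∑ z ∈ Z, Pr F p fun ω => SLink l ω z S with hΞ
  have i3 : q ^ 2 * S.card ≤ 16 * M * Ξ := by
    have j1 := Ex_mono (E := F) h0.le h1.le fun ω hω => count_targets (l := l) (ω := ω) S Z
      ((S ∪ A : Finset V) : Set V)ᶜ (v := 4 * M / q) (by positivity) fun x hx z hz h =>
        Finset.mem_sdiff.2 ⟨hf.mem_toFinset.2 (Nb_mono (Set.singleton_subset_iff.2 hx)
          (h.symm.mem_Nb (hω.trans hF))), hz⟩
    simp only [div_eq_mul_inv _ (4 * M / q), Ex_add, Ex_mul_left, Ex_mul_right, Ex_sum] at j1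
    have j2 := Finset.sum_le_card_nsmul S _ M fun x _ => hM F hF x S
    have j3 := (i2.trans j1).trans (add_le_add le_rfl
      (mul_le_mul_of_nonneg_right j2 (by positivity)))
    have e : S.card • M * (4 * M / q)⁻¹ = q * S.card / 4 := by rw [nsmul_eq_mul]; field_simp
    rw [e] at j3
    change _ ≤ 4 * M / q * Ξ + _ at j3
    have j4 : q * S.card / 4 ≤ 4 * M * Ξ / q := by rw [← div_mul_eq_mul_div (4 * M)]; linarith
    rw [le_div_iff₀ q0] at j4
    linarith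
  have i4 : ∀ z ∈ Z, c * X / 2 ≤ ∑ y ∈ Λ, Pr F p fun ω => Conn ω y z ∧ ¬ Link ω {y} S := by
    intro z hz
    obtain ⟨z1, z2⟩ := Finset.mem_sdiff.1 hz
    have j1 : T2 z ≤ c / 2 := by
      by_contra hc
      exact z2 (Finset.mem_union_right _ (Finset.mem_filter.2 ⟨z1, (not_le.1 hc).le⟩))
    have j2 := b6 z z1
    rw [Finset.sum_congr rfl fun y _ => tau_split (fun ω => Link ω {z} (S : Set V)),
      Finset.sum_add_distrib] at j2
    have j3 := (Finset.sum_le_sum fun y (_ : y ∈ Λ) => Pr_le_sum (E := F) h0.le h1.le S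
      (A := fun ω => Conn ω z y ∧ Link ω {z} (S : Set V))
      (fun s ω => Conn ω z y ∧ Conn ω z s) fun ω _ h => by
        obtain ⟨s, hs, hc⟩ := link_singleton.1 h.2
        exact ⟨s, hs, h.1, hc⟩).trans (sum_tree hB hF h0.le h1.le b5 (b4 z1) S)
    have j4 : ∑ y ∈ Λ, Pr F p (fun ω => Conn ω z y ∧ ¬ Link ω {z} S) ≤
        ∑ y ∈ Λ, Pr F p fun ω => Conn ω y z ∧ ¬ Link ω {y} S :=
      Finset.sum_le_sum fun y _ => Pr_mono h0.le h1.le fun ω _ h => ⟨h.1.symm, fun h' => by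
        obtain ⟨s, hs, hc⟩ := link_singleton.1 h'
        exact h.2 (link_singleton.2 ⟨s, hs, h.1.trans hc⟩)⟩
    change _ ≤ X * T2 z at j3
    nlinarith [mul_le_mul_of_nonneg_left j1 X0.le]
  set Φ := ∑ y ∈ Λ, Pr F p fun ω => Link ω {y} S with hΦ
  have i5 : p * (c * X / 2 * Ξ) ≤ (l + 1) * M * Φ := by
    have j1 := Finset.sum_le_sum fun y (_ : y ∈ Λ) =>
      star hF h0.le h1.le (hM.mono h0.le h1.le (Nat.le_add_right l l)) y S Z
    rw [← Finset.mul_sum, ← Finset.mul_sum, Finset.sum_comm] at j1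
    refine le_trans (mul_le_mul_of_nonneg_left ?_ h0.le) j1
    rw [hΞ, Finset.mul_sum]
    refine Finset.sum_le_sum fun z hz => ?_
    rw [← Finset.sum_mul]
    exact mul_le_mul_of_nonneg_right (i4 z hz) (Pr_nonneg h0.le h1.le _)
  have i6 : σ * Φ ≤ S.card * X := by
    rw [hΦ, Finset.mul_sum]
    exact (Finset.sum_le_sum fun y _ => glue_sum h0.le h1 y S fun a ha => (hmin a ha).trans
      (sum_tau_mono h0.le le_rfl h1.le (Finset.subset_union_left.trans b3) le_rfl)).trans (col Λ)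
  rw [le_div_iff₀ (by positivity)]
  refine le_of_mul_le_mul_right ?_ (mul_pos n0 X0)
  have k1 := mul_le_mul_of_nonneg_left i3 (show 0 ≤ σ * p * c * X by positivity)
  have k2 := mul_le_mul_of_nonneg_left i5 (show 0 ≤ 32 * M * σ by positivity)
  have k3 := mul_le_mul_of_nonneg_left i6 (show 0 ≤ 32 * ((l + 1) * M ^ 2) by positivity)
  nlinarith

lemma fat_op (hG : DegLe G Δ) (h0 : 0 < p) (h1 : p < 1) {X c M θ q : ℝ} {l : ℕ} (hB : Bnd G p X)
    (hL : Low G p (c * X)) (X0 : 0 < X) (c0 : 0 < c) (hM : SBnd G p (l + l) M) (M0 : 0 < M)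
    (hS : SE G p l θ q) (q0 : 0 < q) (θ0 : 0 ≤ θ) (hθ : θ * (1 + 2 * X ^ 2 / c) ≤ 1 / 2) (J : ℕ) :
    OpBnd G p ((J + 1) * (8 * (32 * ((l + 1) * M ^ 2) / (p * c * q ^ 2)) + 2 * X / 2 ^ J)) :=
  fun E hE Λ => (ker_tau h0.le h1.le).dyadic (by positivity)
    (fat hG h0 h1 hB hL X0 c0 hM M0 hS q0 θ0 hθ hE) (fun x _ => hB E hE x Λ) J

end Vale.Agent.P165
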