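import Vale.Agent.P165.Double

/-!
Sharpness: infinite susceptibility at `s` gives percolation above `s`.
-/

namespace Vale.Agent.P165

open Vale.Agent.P151

variable {V : Type*} {G : SimpleGraph V} {E E' : Finset (Sym2 V)} {p t : ℝ} {x y z : V} {Δ D : ℕ}

lemma phi_map (φ : G ≃g G) {S S' : Set V} (h : ∀ v, φ v ∈ S' ↔ v ∈ S) :
    phi E p x S = phi (E.map (em φ)) p (φ x) S' := by
  unfold phi
  refine Finset.sum_equiv (φ.toEquiv.prodCongr φ.toEquiv) (fun d => ?_) fun d _ => ?_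
  · rw [mem_darts, mem_darts]
    exact (Finset.mem_map' (em φ)).symm
  · change _ = ind (φ d.1 ∈ S' ∧ φ d.2 ∉ S') *
      Pr (E.map (em φ)) p fun ω => Conn (ω ∩ inside S') (φ x) (φ d.1)
    rw [h, h, Pr_map]
    congr 1
    refine Pr_congr fun ω _ => ?_
    rw [← conn_map_iff φ]
    have : em φ '' (ω ∩ inside S) = em φ '' ω ∩ inside S' := by
      rw [← Set.image_inter_preimage]
      congr 2
      ext e
      induction e with
      | h a b => rw [Set.mem_preimage, em_mk, mem_inside_iff, mem_inside_iff, h, h]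
    rw [this]

lemma exists_root (h0 : 0 ≤ p) (h1 : p ≤ 1) (R : Finset V)
    (hR : ∀ x, ∃ g : G ≃g G, ∃ s ∈ R, g s = x) (hn : ∀ X, ¬ Bnd G p X) :
    ∃ x, ∀ S : Finset V, x ∈ S → ∃ E, Sub G E ∧ 1 / 2 < phi E p x S := by
  by_contra hc
  push Not at hc
  choose S s1 s2 using hc
  refine hn _ (bnd_of_fam h0 h1 (N := R.sup fun r => (S r).card) fun E hE x => ?_)
  obtain ⟨φ, r, hr, rfl⟩ := hR x
  refine ⟨(S r).map φ.toEquiv.toEmbedding, Finset.mem_map_of_mem _ (s1 r), ?_, ?_⟩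
  · rw [Finset.card_map]; exact Finset.le_sup (f := fun r => (S r).card) hr
  · rw [phi_map φ.symm (S' := S r) fun v => Finset.mem_map_equiv.symm]
    simpa using s2 r _ (hE.map φ.symm)

lemma phi_local (h0 : 0 ≤ p) (hp : p ≤ t) (h1 : t ≤ 1) {S : Set V} (hE' : Sub G E')
    (hE : G.edgeSet ∩ touch S ⊆ E) : phi E' p x S ≤ phi E t x S := by
  classical
  unfold phi
  rw [← Finset.sum_subset (Finset.inter_subset_left (s₂ := darts E))]
  · refine le_trans (Finset.sum_le_sum fun d _ => mul_le_mul_of_nonneg_left ?_ (ind_nonneg _))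
      (Finset.sum_le_sum_of_subset_of_nonneg Finset.inter_subset_right
        fun _ _ _ => mul_nonneg (ind_nonneg _) (Pr_nonneg (h0.trans hp) h1 _))
    refine le_trans (Pr_couple h0 (hp.trans h1) fun ω h => ?_) (Pr_mono_p h0 hp h1 (inc_conn_in _ _ _))
    exact h.mono fun e he => ⟨⟨he.1.1, hE ⟨hE' he.1.2, inside_subset_touch he.2⟩⟩, he.2⟩
  · intro d hd hd'
    rw [ind_of_not, zero_mul]
    exact fun h => hd' (Finset.mem_inter.2 ⟨hd, mem_darts.2
      (hE ⟨hE' (mem_darts.1 hd), mem_touch_iff.2 (Or.inl h.1)⟩)⟩)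

lemma mem_ClS_iff {ω : Set (Sym2 V)} {T : Set V} : x ∈ ClS ω T ↔ Link ω {x} T := by
  rw [link_singleton]
  exact ⟨fun ⟨y, hy, h⟩ => ⟨y, hy, h.symm⟩, fun ⟨y, hy, h⟩ => ⟨y, hy, h.symm⟩⟩

lemma sharp (hG : DegLe G Δ) (h0 : 0 ≤ p) (hp : p < t) (h1 : t ≤ 1)
    (hx : ∀ S : Finset V, x ∈ S → ∃ E, Sub G E ∧ 1 / 2 < phi E p x S) : Perc G t x := by
  refine ⟨(t - p) / 3, by linarith, fun R => ?_⟩
  set E := EB G (R + 1) x
  set T := (Nb G R {x})ᶜ
  have hE : Sub G E := EB_subset_edgeSet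
  have key := le_sub_of_deriv (fun r => russo (E := E) (fun ω => ind (Link ω {x} T)) r) hp.le
    (c := (1 - Pr E t fun ω => Link ω {x} T) / 2) fun r r1 r2 => by
      have r0 := h0.trans r1
      have r3 := r2.trans h1
      refine le_trans ?_ (russo_lower r0 r3 hE (inc_link {x} T)
        (fun d ω => Conn ω x d.1 ∧ ¬ Link ω {x} T ∧ Link ω {d.2} T) (fun d ω h => ⟨h.2.1, by
          obtain ⟨y, hy, hc⟩ := link_singleton.1 h.2.2
          exact link_singleton.2 ⟨y, hy,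
            (h.1.mono (Set.subset_insert _ _)).trans (conn_insert hc)⟩⟩)
        fun a b ω h h' => h.2.1 (by
          obtain ⟨y, hy, hc⟩ := link_singleton.1 h'.2.2
          exact link_singleton.2 ⟨y, hy, h.1.trans hc⟩))
      have i1 : Ex E r (fun ω => ∑ d ∈ darts E, ind (x ∉ ClS ω T) *
          (ind (d.1 ∉ ClS ω T ∧ d.2 ∈ ClS ω T) * ind (Conn (ω \ touch (ClS ω T)) x d.1))) ≤
          ∑ d ∈ darts E, Pr E r fun ω => Conn ω x d.1 ∧ ¬ Link ω {x} T ∧ Link ω {d.2} T := by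
        rw [Ex_sum]
        refine Finset.sum_le_sum fun d _ => Ex_mono r0 r3 fun ω _ => ?_
        rw [← ind_and, ← ind_and]
        exact ind_mono fun h => ⟨h.2.2.mono Set.sdiff_subset, mt mem_ClS_iff.2 h.1,
          mem_ClS_iff.1 h.2.1.2⟩
      refine le_trans ?_ i1
      rw [resampleS T fun K η => ∑ d ∈ darts E, ind (x ∉ K) *
        (ind (d.1 ∉ K ∧ d.2 ∈ K) * ind (Conn η x d.1))]
      refine le_trans (div_le_div_of_nonneg_right (sub_le_sub_left
        (Pr_mono_p r0 r2 h1 (inc_link {x} T)) 1) zero_le_two) ?_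
      rw [← Pr_not, div_eq_mul_inv, Pr, ← Ex_mul_right]
      refine Ex_mono r0 r3 fun ω _ => ?_
      simp only [Ex_sum, Ex_mul_left, ← Finset.mul_sum, mem_ClS_iff (x := x)]
      by_cases c : Link ω {x} T
      · rw [ind_of_not (not_not.2 c), zero_mul, zero_mul]
      refine mul_le_mul_of_nonneg_left ?_ (ind_nonneg _)
      have hS : (ClS ω T)ᶜ ⊆ Nb G R {x} := Set.compl_subset_comm.1 subset_ClS
      have hf := (hG.finite_Nb (Set.finite_singleton x) R).subset hS
      obtain ⟨E', a1, a2⟩ := hx hf.toFinset (hf.mem_toFinset.2 (mt mem_ClS_iff.1 c))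
      rw [hf.coe_toFinset] at a2
      have a3 := phi_local (x := x) (E := E) (S := (ClS ω T)ᶜ) h0 r1 r3 a1 (by
        rw [hG.coe_EB]
        rintro e ⟨he, v, hv, hve⟩
        obtain ⟨w, rfl⟩ := Sym2.mem_iff_exists.1 hve
        exact ⟨he, mem_inside_iff.2 ⟨Nb_subset_succ (hS hv), mem_Nb_of_adj (hS hv) he⟩⟩)
      rw [← one_div]
      refine (a2.le.trans a3).trans (Finset.sum_le_sum fun d _ => ?_)
      simp only [Set.mem_compl_iff, not_not]
      refine mul_le_mul_of_nonneg_left (Pr_mono r0 r3 fun η _ h => h.mono ?_) (ind_nonneg _)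
      exact fun e he => ⟨he.1, fun ⟨v, hv, hve⟩ => he.2 v hve hv⟩
  have i1 := Pr_nonneg (E := E) h0 (hp.le.trans h1) fun ω => Link ω {x} T
  have i2 := Pr_nonneg (E := E) (h0.trans hp.le) h1 fun ω => Link ω {x} T
  unfold Pr at *
  nlinarith [mul_le_mul_of_nonneg_left (show t - p ≤ 1 by linarith) i2]

end Vale.Agent.P165
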