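import Vale.Agent.P165.Asym
import Vale.Agent.P165.Sharp
import Vale.Agent.P165.Defs

/-!
Passage to infinite volume.
-/

open MeasureTheory ProbabilityTheory

namespace Vale.Agent.P165

open Vale.Agent.P151 hiding perc pc
open Vale.Agent.P151.Br

variable {V : Type*} {G : SimpleGraph V} {Δ D : ℕ}

lemma prob_perc (p : unitInterval) : IsProbabilityMeasure (perc G p) := by
  unfold perc; infer_instance

/-- the cluster of `x` leaves the ball of radius `R` -/
def Ev (G : SimpleGraph V) (x : V) (R : ℕ) : Set (Set (Sym2 V)) :=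
  {w | Link (w ∩ EB G (R + 1) x) {x} (Nb G R {x})ᶜ}

lemma Ev_real (p : unitInterval) (x : V) (R : ℕ) : (perc G p).real (Ev G x R) =
    Pr (EB G (R + 1) x) p fun ω => Link ω {x} (Nb G R {x})ᶜ :=
  ev_real p (EB G (R + 1) x) EB_subset_edgeSet fun ω => Link ω {x} (Nb G R {x})ᶜ

lemma Ev_meas (x : V) (R : ℕ) : MeasurableSet (Ev G x R) :=
  ev_meas (EB G (R + 1) x) fun ω => Link ω {x} (Nb G R {x})ᶜ

lemma Ev_anti (hG : DegLe G Δ) (x : V) : Antitone (Ev G x) := by
  refine antitone_nat_of_succ_le fun R w hw => ?_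
  obtain ⟨y, hy, hcn⟩ := link_singleton.1 hw
  exact (link_of_conn hG (Set.inter_subset_right.trans EB_subset_edgeSet) hcn
    (fun h => hy (Nb_subset_succ h))).mono
    (Set.inter_subset_inter_left _ Set.inter_subset_left) le_rfl le_rfl

lemma mem_iInter_Ev (hG : DegLe G Δ) (hc : G.Preconnected) {w : Set (Sym2 V)}
    (hw : w ⊆ G.edgeSet) (x : V) : w ∈ ⋂ R, Ev G x R ↔ (Cl w x).Infinite := by
  constructor
  · intro hx hfin
    obtain ⟨R, hR⟩ := exists_Nb_finite hc x hfin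
    obtain ⟨y, hy, hcn⟩ := link_singleton.1 (Set.mem_iInter.1 hx R)
    exact hy (hR (hcn.mono Set.inter_subset_left))
  · intro hx
    refine Set.mem_iInter.2 fun R => ?_
    obtain ⟨y, hy, hy'⟩ := hx.exists_notMem_finite (hG.finite_Nb (Set.finite_singleton x) R)
    exact link_of_conn hG hw hy hy'

lemma supp_mk (w : Set (Sym2 V)) (x : V) :
    ((SimpleGraph.fromEdgeSet w).connectedComponentMk x).supp = Cl w x := by
  ext y
  rw [SimpleGraph.ConnectedComponent.mem_supp_iff, SimpleGraph.ConnectedComponent.eq,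
    ← conn_iff_reachable]
  exact ⟨Conn.symm, Conn.symm⟩

lemma one_le_numInf {w : Set (Sym2 V)} : 1 ≤ numInf w ↔ ∃ x, (Cl w x).Infinite := by
  unfold numInf
  rw [Set.one_le_encard_iff_nonempty]
  constructor
  · rintro ⟨C, hC⟩
    induction C using SimpleGraph.ConnectedComponent.ind with
    | _ x => exact ⟨x, supp_mk w x ▸ hC⟩
  · rintro ⟨x, hx⟩
    exact ⟨_, (supp_mk w x).symm ▸ hx⟩

lemma conn_of_numInf {w : Set (Sym2 V)} (h : numInf w = 1) {x y : V} (hx : (Cl w x).Infinite)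
    (hy : (Cl w y).Infinite) : Conn w x y := by
  obtain ⟨C, hC⟩ := Set.encard_eq_one.1 h
  rw [← supp_mk] at hx hy
  have h1 := (Set.ext_iff.1 hC _).1 hx
  have h2 := (Set.ext_iff.1 hC _).1 hy
  exact conn_iff_reachable.2 (SimpleGraph.ConnectedComponent.exact (h1.trans h2.symm))

lemma le_iInter_anti {μ : Measure (Set (Sym2 V))} [IsProbabilityMeasure μ]
    {A : ℕ → Set (Set (Sym2 V))} (hA : Antitone A) (hm : ∀ R, MeasurableSet (A R)) {c : ℝ}
    (hc : ∀ R, c ≤ μ.real (A R)) : ENNReal.ofReal c ≤ μ (⋂ R, A R) := by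
  rw [hA.measure_iInter (fun R => (hm R).nullMeasurableSet) ⟨0, measure_ne_top _ _⟩]
  exact le_iInf fun R => (ENNReal.ofReal_le_iff_le_toReal (measure_ne_top _ _)).2 (hc R)

lemma QT.pos_of_perc (h : QT G Δ D) (p : unitInterval) {x : V} (hx : Perc G p x) :
    0 < perc G p {ω | 1 ≤ numInf ω} := by
  have := countable_V h.conn h.deg
  have := prob_perc (G := G) p
  obtain ⟨c, c0, hc⟩ := hx
  refine (ENNReal.ofReal_pos.2 c0).trans_le ((le_iInter_anti (μ := perc G p) (Ev_anti h.deg x)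
    (Ev_meas x) fun R => by rw [Ev_real]; exact hc R).trans (measure_mono_ae ?_))
  filter_upwards [setBernoulli_ae_subset (u := G.edgeSet) (p := p)] with w hw hx
  exact one_le_numInf.2 ⟨x, (mem_iInter_Ev h.deg h.conn hw x).1 hx⟩

lemma conn_in_ball (hG : DegLe G Δ) {w : Set (Sym2 V)} (hw : w ⊆ G.edgeSet) {x y : V}
    (h : Conn w x y) : ∃ R, y ∈ Nb G R {x} ∧ Conn (w ∩ EB G R x) x y := by
  induction h with
  | refl => exact ⟨0, rfl, Conn.refl _ _⟩
  | tail _ h2 ih =>
    obtain ⟨R, h3, h4⟩ := ih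
    refine ⟨R + 1, mem_Nb_of_adj h3 (hw h2), Conn.tail (h4.mono (Set.inter_subset_inter_right _
      (Finset.coe_subset.2 (EB_mono hG Nb_subset_succ)))) ⟨h2, ?_⟩⟩
    rw [hG.coe_EB]
    exact ⟨hw h2, mem_inside_iff.2 ⟨Nb_subset_succ h3, mem_Nb_of_adj h3 (hw h2)⟩⟩

lemma QT.tau_of_unique (h : QT G Δ D) (p : unitInterval)
    (hu : perc G p {ω | numInf ω = 1} = 1) {x y : V} {c : ℝ} (c0 : 0 < c)
    (hx : ∀ R, c ≤ (perc G p).real (Ev G x R)) (hy : ∀ R, c ≤ (perc G p).real (Ev G y R)) :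
    ∃ R, c ^ 2 / 2 ≤ tau (EB G R x) p x y := by
  classical
  have := countable_V h.conn h.deg
  have := prob_perc (G := G) p
  have p0 := p.2.1
  have p1 := p.2.2
  by_contra hn
  push Not at hn
  set C : ℕ → Set (Set (Sym2 V)) := fun R => {w | Conn (w ∩ EB G R x) x y} with hC
  have m1 : ∀ R, MeasurableSet (C R) := fun R => ev_meas (EB G R x) fun ω => Conn ω x y
  have m2 : ∀ R, MeasurableSet (Ev G x R ∩ Ev G y R) := fun R => (Ev_meas x R).inter (Ev_meas y R)
  have i1 : perc G p (⋃ R, C R) ≤ ENNReal.ofReal (c ^ 2 / 2) := by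
    rw [Monotone.measure_iUnion (s := C) fun R R' hR w hw => Conn.mono (Set.inter_subset_inter_right _
      (Finset.coe_subset.2 (EB_mono h.deg (Nb_mono_left hR)))) hw]
    refine iSup_le fun R => ENNReal.le_ofReal_iff_toReal_le (measure_ne_top _ _)
      (by positivity) |>.2 ?_
    exact (ev_real p (EB G R x) EB_subset_edgeSet fun ω => Conn ω x y).le.trans (hn R).le
  have i2 : ENNReal.ofReal (c ^ 2) ≤ perc G p (⋂ R, Ev G x R ∩ Ev G y R) := by
    refine le_iInter_anti ((Ev_anti h.deg x).inter (Ev_anti h.deg y)) m2 fun R => ?_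
    have e := ev_real p (EB G (R + 1) x ∪ EB G (R + 1) y)
      (Sub.union EB_subset_edgeSet EB_subset_edgeSet) fun ω =>
        Link (ω ∩ EB G (R + 1) x) {x} (Nb G R {x})ᶜ ∧ Link (ω ∩ EB G (R + 1) y) {y} (Nb G R {y})ᶜ
    simp only [Set.inter_assoc, Finset.coe_union, Set.union_inter_cancel_left,
      Set.union_inter_cancel_right] at e
    have j1 := hx R
    have j2 := hy R
    rw [Ev_real] at j1 j2
    refine le_trans ?_ e.ge
    refine le_trans ?_ (Pr_harris p0 p1
      (fun _ _ a b => b.mono (Set.inter_subset_inter_left _ a) le_rfl le_rfl)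
      fun _ _ a b => b.mono (Set.inter_subset_inter_left _ a) le_rfl le_rfl)
    rw [sq]
    exact mul_le_mul (j1.trans (Pr_le_of_subset p0 p1 Finset.subset_union_left fun _ _ a => a))
      (j2.trans (Pr_le_of_subset p0 p1 Finset.subset_union_right fun _ _ a => a)) c0.le
      (Pr_nonneg p0 p1 _)
  have i3 : perc G p ((⋂ R, Ev G x R ∩ Ev G y R) \ ⋃ R, C R) = 0 := by
    rw [← prob_compl_eq_one_iff ((MeasurableSet.iInter m2).diff (MeasurableSet.iUnion m1))]
    refine le_antisymm prob_le_one (hu.ge.trans (measure_mono_ae ?_))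
    filter_upwards [setBernoulli_ae_subset (u := G.edgeSet) (p := p)] with w hw h1 h2
    rw [Set.iInter_inter_distrib] at h2
    obtain ⟨R, -, hR⟩ := conn_in_ball h.deg hw (conn_of_numInf h1
      ((mem_iInter_Ev h.deg h.conn hw x).1 h2.1.1) ((mem_iInter_Ev h.deg h.conn hw y).1 h2.1.2))
    exact h2.2 (Set.mem_iUnion.2 ⟨R, hR⟩)
  have i4 := (i2.trans (measure_mono_ae (ae_le_set.2 i3))).trans i1
  rw [ENNReal.ofReal_le_ofReal_iff (by positivity)] at i4
  nlinarith

lemma QT.not_unique (h : QT G Δ D) (p : unitInterval) {B : ℝ} (hB : OpBnd G p B) :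
    perc G p {ω | numInf ω = 1} ≠ 1 := by
  intro hu
  have := countable_V h.conn h.deg
  have := prob_perc (G := G) p
  have := h.inf
  have p0 := p.2.1
  have p1 := p.2.2
  have i1 : perc G p (⋃ x, ⋂ R, Ev G x R) ≠ 0 := by
    refine ne_of_gt (lt_of_lt_of_le one_pos (hu.ge.trans (measure_mono_ae ?_)))
    filter_upwards [setBernoulli_ae_subset (u := G.edgeSet) (p := p)] with w hw h1
    obtain ⟨x, hx⟩ := one_le_numInf.1 (show numInf w = 1 from h1).ge
    exact Set.mem_iUnion.2 ⟨x, (mem_iInter_Ev h.deg h.conn hw x).2 hx⟩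
  rw [Ne, measure_iUnion_null_iff, not_forall] at i1
  obtain ⟨x, hx⟩ := i1
  set c := (perc G p).real (⋂ R, Ev G x R)
  have c0 : 0 < c := ENNReal.toReal_pos hx (measure_ne_top _ _)
  have i2 : ∀ R, c ≤ (perc G p).real (Ev G x R) := fun R =>
    measureReal_mono (Set.iInter_subset _ R)
  have i3 : ∀ y, ∃ R, y ∈ Set.range (fun φ : G ≃g G => φ x) →
      c ^ 2 / 2 ≤ tau (EB G R x) p x y := by
    intro y
    by_cases hy : y ∈ Set.range fun φ : G ≃g G => φ x
    swap
    · exact ⟨0, fun h => absurd h hy⟩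
    obtain ⟨φ, rfl⟩ := hy
    obtain ⟨R, hR⟩ := h.tau_of_unique p hu c0 i2 (y := φ x) fun R => by
      have := transport' h.deg p0 p1 φ (R + 1) x (S := {x}) (T := (Nb G R {x})ᶜ) (S' := {φ x})
        (T' := (Nb G R {φ x})ᶜ) (fun v hv => by rw [hv]; rfl)
        fun v hv h => hv ((map_mem_Nb_iff φ).1 h)
      rw [Pr_not, Pr_not, ← Ev_real, ← Ev_real] at this
      linarith [i2 R]
    exact ⟨R, fun _ => hR⟩
  choose R hR using i3
  have i4 : (Set.range fun φ : G ≃g G => φ x).Infinite := fun hf =>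
    Set.infinite_univ ((h.deg.finite_Nb hf D).subset fun y _ => by
      obtain ⟨φ, hφ⟩ := h.hom x y
      exact Nb_mono (Set.singleton_subset_iff.2 (Set.mem_range_self φ)) (Nb_symm hφ))
  obtain ⟨n, hn⟩ := exists_nat_gt (max (B / (c ^ 2 / 2) ^ 2) 0)
  obtain ⟨Λ, a1, a2⟩ := i4.exists_subset_card_eq n
  have i5 : ∀ y ∈ Λ, c ^ 2 / 2 ≤ tau (EB G (Λ.sup R) x) p x y := fun y hy =>
    (hR y (a1 hy)).trans (tau_mono_E p0 p1 (EB_mono h.deg (Nb_mono_left (Finset.le_sup hy))))
  have i6 := hB (EB G (Λ.sup R) x) EB_subset_edgeSet Λ (fun _ => 1) fun _ => zero_le_one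
  have i7 : ∑ y ∈ Λ, ∑ z ∈ Λ, (c ^ 2 / 2) ^ 2 ≤
      Bf Λ (tau (EB G (Λ.sup R) x) p) (fun _ => 1) fun _ => 1 :=
    Finset.sum_le_sum fun y hy => Finset.sum_le_sum fun z hz => by
      rw [one_mul, one_mul, sq]
      refine (mul_le_mul (i5 y hy) (i5 z hz) (by positivity) (tau_nonneg p0 p1)).trans
        ((Pr_harris p0 p1 (inc_conn _ _) (inc_conn _ _)).trans ?_)
      exact Pr_mono p0 p1 fun ω _ h => h.1.symm.trans h.2
  simp only [Finset.sum_const, a2, nsmul_eq_mul, mul_one, one_pow] at i6 i7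
  have n0 := (le_max_right _ _).trans_lt hn
  have n1 := (le_max_left _ _).trans_lt hn
  rw [div_lt_iff₀ (by positivity)] at n1
  nlinarith

lemma exists_QT [Infinite V] [G.LocallyFinite] (hc : G.Connected) (S : Finset V)
    (hS : ∀ x, ∃ g : G ≃g G, ∃ s ∈ S, g s = x) : ∃ Δ D, QT G Δ D := by
  classical
  choose d hd using fun s s' : V => exists_Nb_of_reachable (hc.preconnected s' s)
  refine ⟨S.sup (fun s => G.degree s) + 1, S.sup fun s => S.sup (d s), fun x => ?_,
    Nat.succ_pos _, fun x y => ?_, hc.preconnected, inferInstance⟩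
  · obtain ⟨g, s, hs, rfl⟩ := hS x
    refine ⟨(G.neighborFinset s).image g, Finset.card_image_le.trans
      ((Finset.le_sup (f := fun s => G.degree s) hs).trans (Nat.le_succ _)), fun y hy => ?_⟩
    refine Finset.mem_image.2 ⟨g.symm y, ?_, by simp⟩
    rw [SimpleGraph.mem_neighborFinset, ← g.map_adj_iff]
    simpa using hy
  · obtain ⟨g, s, hs, rfl⟩ := hS x
    obtain ⟨g', s', hs', rfl⟩ := hS y
    refine ⟨g.symm.trans g', ?_⟩
    simpa using map_mem_Nb g' (Nb_mono_left ((Finset.le_sup hs').trans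
      (Finset.le_sup (f := fun s => S.sup (d s)) hs)) (hd s s'))

lemma na_hV : NA G (hV G) := by
  classical
  intro A W hAW hW
  rcases A.eq_empty_or_nonempty with rfl | hA
  · simp
  have i1 : hV G ≤ ((vBdry G A).ncard : ℝ) / A.card :=
    csInf_le ⟨0, by rintro _ ⟨A, -, rfl⟩; positivity⟩ ⟨A, hA, rfl⟩
  have i2 : (vBdry G A).ncard ≤ (W \ A).card := by
    rw [← Set.ncard_coe_finset]
    refine Set.ncard_le_ncard ?_ (Finset.finite_toSet _)
    rintro v ⟨h1, u, hu, h2⟩
    exact Finset.mem_coe.2 (Finset.mem_sdiff.2 ⟨hW u hu v h2, h1⟩)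
  have i3 : ((vBdry G A).ncard : ℝ) + A.card ≤ W.card := by
    exact_mod_cast (Nat.add_le_add_right i2 _).trans (Finset.card_sdiff_add_card_eq_card hAW).le
  rw [le_div_iff₀ (by exact_mod_cast hA.card_pos)] at i1
  linarith

theorem pc_lt_pu [Infinite V] [G.LocallyFinite] (hc : G.Connected)
    (hS : ∃ S : Finset V, ∀ x, ∃ g : G ≃g G, ∃ s ∈ S, g s = x) (hh : 0 < hV G) :
    pc G < pu G := by
  obtain ⟨S, hS⟩ := hS
  obtain ⟨Δ, D, h⟩ := exists_QT hc S hS
  obtain ⟨s, t, B, s0, st, t1, hs, ht⟩ := h.goal hh na_hV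
  obtain ⟨x, hx⟩ := exists_root s0 (st.le.trans t1) S hS hs
  let m : unitInterval := ⟨(s + t) / 2, by constructor <;> linarith⟩
  let t' : unitInterval := ⟨t, by constructor <;> linarith⟩
  have i1 : pc G ≤ m := sInf_le (h.pos_of_perc m
    (sharp h.deg s0 (show s < (s + t) / 2 by linarith) m.2.2 hx))
  have i2 : t' ≤ pu G := le_sInf fun r hr => by
    by_contra hn
    exact h.not_unique r (ht.mono r.2.1 (not_le.1 hn).le t1 le_rfl) hr
  exact i1.trans_lt (lt_of_lt_of_le (show (s + t) / 2 < t by linarith) i2)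

end Vale.Agent.P165
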