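import Mathlib

/-!
Positive semidefinite nonnegative kernels: from bounds on sets to operator bounds.
-/

namespace Vale.Agent.P165

variable {V : Type*}

/-- bilinear form of a kernel -/
def Bf (Λ : Finset V) (k : V → V → ℝ) (f g : V → ℝ) : ℝ := ∑ x ∈ Λ, ∑ y ∈ Λ, f x * g y * k x y

/-- symmetric, nonnegative, positive semidefinite kernels -/
structure Ker (k : V → V → ℝ) : Prop where
  symm : ∀ x y, k x y = k y x
  nonneg : ∀ x y, 0 ≤ k x y
  psd : ∀ Λ f, 0 ≤ Bf Λ k f f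

/-- operator bound -/
def OpK (Λ : Finset V) (k : V → V → ℝ) (B : ℝ) : Prop :=
  ∀ f : V → ℝ, (∀ x, 0 ≤ f x) → Bf Λ k f f ≤ B * ∑ x ∈ Λ, f x ^ 2

variable {k : V → V → ℝ} {Λ : Finset V} {B : ℝ}

lemma Ker.Bf_comm (hk : Ker k) (f g : V → ℝ) : Bf Λ k f g = Bf Λ k g f := by
  unfold Bf
  rw [Finset.sum_comm]
  exact Finset.sum_congr rfl fun x _ => Finset.sum_congr rfl fun y _ => by rw [hk.symm]; ring

lemma Ker.two_Bf (hk : Ker k) (f g : V → ℝ) : 2 * Bf Λ k f g ≤ Bf Λ k f f + Bf Λ k g g := by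
  have h := hk.psd Λ fun x => f x - g x
  have e : Bf Λ k (fun x => f x - g x) (fun x => f x - g x) =
      Bf Λ k f f + Bf Λ k g g - Bf Λ k f g - Bf Λ k g f := by
    simp only [Bf, ← Finset.sum_add_distrib, ← Finset.sum_sub_distrib]
    exact Finset.sum_congr rfl fun x _ => Finset.sum_congr rfl fun y _ => by ring
  rw [e, hk.Bf_comm g f] at h
  linarith

lemma Ker.schur (hk : Ker k) {X : ℝ} (hX : ∀ x ∈ Λ, ∑ y ∈ Λ, k x y ≤ X) (f : V → ℝ) :
    ∑ x ∈ Λ, ∑ y ∈ Λ, (f x ^ 2 + f y ^ 2) * k x y ≤ 2 * X * ∑ x ∈ Λ, f x ^ 2 := by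
  have e : ∑ x ∈ Λ, ∑ y ∈ Λ, f y ^ 2 * k x y = ∑ x ∈ Λ, ∑ y ∈ Λ, f x ^ 2 * k x y := by
    rw [Finset.sum_comm]
    exact Finset.sum_congr rfl fun x _ => Finset.sum_congr rfl fun y _ => by rw [hk.symm]
  simp only [add_mul, Finset.sum_add_distrib]
  rw [e, ← two_mul, mul_assoc, Finset.mul_sum Λ (fun x => f x ^ 2)]
  refine mul_le_mul_of_nonneg_left (Finset.sum_le_sum fun x hx => ?_) zero_le_two
  rw [← Finset.mul_sum, mul_comm]
  exact mul_le_mul_of_nonneg_right (hX x hx) (sq_nonneg _)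

lemma Ker.opK_of_rows (hk : Ker k) {X : ℝ} (hX : ∀ x ∈ Λ, ∑ y ∈ Λ, k x y ≤ X) : OpK Λ k X := by
  intro f _
  have h := hk.schur hX f
  have h2 : 2 * Bf Λ k f f ≤ ∑ x ∈ Λ, ∑ y ∈ Λ, (f x ^ 2 + f y ^ 2) * k x y := by
    simp only [Bf, Finset.mul_sum]
    refine Finset.sum_le_sum fun x _ => Finset.sum_le_sum fun y _ => ?_
    nlinarith [mul_nonneg (sq_nonneg (f x - f y)) (hk.nonneg x y)]
  linarith

lemma OpK.mono (h : OpK Λ k B) {B' : ℝ} (hB : B ≤ B') : OpK Λ k B' := fun f hf =>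
  (h f hf).trans (mul_le_mul_of_nonneg_right hB (Finset.sum_nonneg fun _ _ => sq_nonneg _))

lemma OpK.subset (h : OpK Λ k B) {Λ' : Finset V} (hΛ : Λ' ⊆ Λ) : OpK Λ' k B := by
  classical
  intro f hf
  have := h (fun x => if x ∈ Λ' then f x else 0) fun x => by
    split_ifs
    exacts [hf x, le_rfl]
  simpa only [Bf, ite_mul, mul_ite, zero_mul, mul_zero, ite_pow, ne_eq, OfNat.ofNat_ne_zero,
    not_false_eq_true, zero_pow, Finset.sum_ite_mem, Finset.inter_eq_right.2 hΛ,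
    Finset.sum_ite_irrel, Finset.sum_const_zero] using this

lemma OpK.sq_le (hk : Ker k) (h : OpK Λ k B) (hB : 0 < B) {f : V → ℝ} (hf : ∀ x, 0 ≤ f x) :
    ∑ w ∈ Λ, (∑ x ∈ Λ, f x * k x w) ^ 2 ≤ B ^ 2 * ∑ x ∈ Λ, f x ^ 2 := by
  set u : V → ℝ := fun w => ∑ x ∈ Λ, f x * k x w with hu
  have u0 : ∀ w, 0 ≤ u w := fun w =>
    Finset.sum_nonneg fun x _ => mul_nonneg (hf x) (hk.nonneg _ _)
  have i1 := hk.two_Bf (Λ := Λ) (fun x => B * f x) u
  have i2 := h (fun x => B * f x) fun x => mul_nonneg hB.le (hf x)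
  have i3 := h u u0
  have e1 : Bf Λ k (fun x => B * f x) u = B * ∑ w ∈ Λ, u w ^ 2 := by
    unfold Bf
    rw [Finset.sum_comm, Finset.mul_sum]
    refine Finset.sum_congr rfl fun w _ => ?_
    rw [sq, ← mul_assoc]
    conv_rhs => rw [hu]
    rw [Finset.mul_sum]
    exact Finset.sum_congr rfl fun x _ => by ring
  have e2 : ∑ x ∈ Λ, (B * f x) ^ 2 = B ^ 2 * ∑ x ∈ Λ, f x ^ 2 := by
    rw [Finset.mul_sum]; exact Finset.sum_congr rfl fun x _ => by ring
  rw [e1] at i1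
  rw [e2] at i2
  exact le_of_mul_le_mul_left (by linarith) hB

lemma Ker.prune (hk : Ker k) {s : ℝ}
    (hs : ∀ S : Finset V, S.Nonempty → ∃ x ∈ S, ∑ y ∈ S, k x y ≤ s) (L : Finset V) :
    ∑ x ∈ L, ∑ y ∈ L, k x y ≤ 2 * s * L.card := by
  classical
  induction L using Finset.strongInduction with
  | H L ih =>
    rcases L.eq_empty_or_nonempty with rfl | hL
    · simp
    obtain ⟨x, hx, h⟩ := hs L hL
    have i1 := ih (L.erase x) (Finset.erase_ssubset hx)
    have e1 : ∑ a ∈ L.erase x, ∑ y ∈ L, k a y =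
        ∑ a ∈ L.erase x, k x a + ∑ a ∈ L.erase x, ∑ y ∈ L.erase x, k a y := by
      rw [← Finset.sum_add_distrib]
      exact Finset.sum_congr rfl fun a _ => by rw [← Finset.add_sum_erase L _ hx, hk.symm]
    have i2 : ∑ a ∈ L.erase x, k x a ≤ ∑ a ∈ L, k x a :=
      Finset.sum_le_sum_of_subset_of_nonneg (Finset.erase_subset _ _) fun _ _ _ => hk.nonneg _ _
    rw [← Finset.add_sum_erase L _ hx, e1, ← Finset.card_erase_add_one hx]
    push_cast
    linarith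

lemma far_levels {a b : ℝ} {i j : ℤ} {J : ℕ} (ha : a < 2 ^ (i + 1)) (hb : 2 ^ j ≤ b)
    (h : i + (J + 1) ≤ j) : a * b ≤ (a ^ 2 + b ^ 2) / 2 ^ J := by
  have hb0 : 0 < b := lt_of_lt_of_le (by positivity) hb
  have h1 : a * 2 ^ J ≤ b := by
    calc a * 2 ^ J ≤ 2 ^ (i + 1) * 2 ^ J := mul_le_mul_of_nonneg_right ha.le (by positivity)
      _ = 2 ^ (i + (J + 1)) := by
        rw [← zpow_natCast, ← zpow_add₀ two_ne_zero]; congr 1; ring
      _ ≤ 2 ^ j := zpow_le_zpow_right₀ one_le_two h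
      _ ≤ b := hb
  rw [le_div_iff₀ (by positivity)]
  nlinarith [mul_le_mul_of_nonneg_right h1 hb0.le]

lemma Ker.dyadic (hk : Ker k) {s X : ℝ} (hs0 : 0 ≤ s)
    (hs : ∀ S : Finset V, S.Nonempty → ∃ x ∈ S, ∑ y ∈ S, k x y ≤ s)
    (hX : ∀ x ∈ Λ, ∑ y ∈ Λ, k x y ≤ X) (J : ℕ) :
    OpK Λ k ((J + 1) * (8 * s + 2 * X / 2 ^ J)) := by
  classical
  intro f hf
  set lv : V → ℤ := fun x => Int.log 2 (f x) with hlv
  have l1 : ∀ x, 0 < f x → (2 : ℝ) ^ lv x ≤ f x := fun x hx => by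
    exact_mod_cast Int.zpow_log_le_self (b := 2) one_lt_two hx
  have l2 : ∀ x, f x < (2 : ℝ) ^ (lv x + 1) := fun x => by
    exact_mod_cast Int.lt_zpow_succ_log_self (b := 2) one_lt_two (f x)
  set res : V → ℕ := fun x => (lv x % (J + 1 : ℕ)).toNat with hres
  have r1 : ∀ x, res x ∈ Finset.range (J + 1) := fun x => by
    have := Int.emod_lt_of_pos (lv x) (show (0 : ℤ) < (J + 1 : ℕ) by positivity)
    have := Int.emod_nonneg (lv x) (show ((J + 1 : ℕ) : ℤ) ≠ 0 by positivity)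
    rw [Finset.mem_range, hres]
    simp only
    omega
  set g : ℕ → V → ℝ := fun r x => if res x = r then f x else 0 with hg
  have e1 : Bf Λ k f f = ∑ r ∈ Finset.range (J + 1), ∑ r' ∈ Finset.range (J + 1),
      Bf Λ k (g r) (g r') := by
    have : ∀ x, f x = ∑ r ∈ Finset.range (J + 1), g r x := fun x => by
      simp only [hg, Finset.sum_ite_eq, r1 x, if_true]
    unfold Bf
    conv_lhs => enter [2, x, 2, y]; rw [this x, this y, Finset.sum_mul_sum, Finset.sum_mul]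
    conv_lhs => enter [2, x]; rw [Finset.sum_comm]
    rw [Finset.sum_comm]
    refine Finset.sum_congr rfl fun r _ => ?_
    conv_lhs => enter [2, x, 2, y]; rw [Finset.sum_mul]
    conv_lhs => enter [2, x]; rw [Finset.sum_comm]
    rw [Finset.sum_comm]
  have i1 : Bf Λ k f f ≤ (J + 1) * ∑ r ∈ Finset.range (J + 1), Bf Λ k (g r) (g r) := by
    have := Finset.sum_le_sum fun r (_ : r ∈ Finset.range (J + 1)) =>
      Finset.sum_le_sum fun r' (_ : r' ∈ Finset.range (J + 1)) => hk.two_Bf (Λ := Λ) (g r) (g r')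
    simp only [← Finset.mul_sum, Finset.sum_add_distrib, Finset.sum_const, Finset.card_range,
      nsmul_eq_mul] at this
    rw [e1]
    push_cast at this
    linarith
  set Λ' := Λ.filter fun x => 0 < f x with hΛ'
  have i2 : ∑ r ∈ Finset.range (J + 1), Bf Λ k (g r) (g r) ≤
      ∑ x ∈ Λ, ∑ y ∈ Λ, ((if 0 < f x ∧ 0 < f y ∧ lv y = lv x then 4 * ((2 : ℝ) ^ lv x) ^ 2 else 0)
        * k x y + (f x ^ 2 + f y ^ 2) * k x y / 2 ^ J) := by
    unfold Bf
    rw [Finset.sum_comm]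
    refine Finset.sum_le_sum fun x _ => ?_
    rw [Finset.sum_comm]
    refine Finset.sum_le_sum fun y _ => ?_
    rw [← Finset.sum_mul, mul_div_right_comm, ← add_mul]
    refine mul_le_mul_of_nonneg_right ?_ (hk.nonneg _ _)
    have p0 : 0 ≤ (f x ^ 2 + f y ^ 2) / 2 ^ J := by positivity
    have p1 : (0 : ℝ) ≤ if 0 < f x ∧ 0 < f y ∧ lv y = lv x then 4 * ((2 : ℝ) ^ lv x) ^ 2 else 0 := by
      split_ifs <;> positivity
    simp only [hg, ite_mul, zero_mul, Finset.sum_ite_eq, r1 x, if_true]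
    rcases (hf x).eq_or_lt with hx | hx
    · exact le_trans (le_of_eq (by rw [← hx, zero_mul])) (add_nonneg p1 p0)
    rcases (hf y).eq_or_lt with hy | hy
    · exact le_trans (le_of_eq (by rw [← hy, ite_self, mul_zero])) (add_nonneg p1 p0)
    split_ifs with c1 c2 c2
    · have := l2 y
      rw [c2.2.2] at this
      have e : (2 : ℝ) ^ (lv x + 1) = 2 * 2 ^ lv x := by rw [zpow_add_one₀ two_ne_zero, mul_comm]
      nlinarith [mul_lt_mul'' (l2 x) this hx.le hy.le]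
    · have hne : lv y ≠ lv x := fun h => c2 ⟨hx, hy, h⟩
      have hd : ((J + 1 : ℕ) : ℤ) ∣ lv y - lv x := by
        have h0 := Int.emod_nonneg (lv x) (show ((J + 1 : ℕ) : ℤ) ≠ 0 by positivity)
        have h1 := Int.emod_nonneg (lv y) (show ((J + 1 : ℕ) : ℤ) ≠ 0 by positivity)
        refine Int.ModEq.dvd (show lv x % _ = lv y % _ from ?_)
        simp only [hres] at c1
        omega
      have hab := Int.le_abs_of_dvd (sub_ne_zero.2 hne) hd
      push_cast at hab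
      rw [zero_add]
      rcases le_abs.1 hab with h | h
      · exact far_levels (l2 x) (l1 y hy) (by linarith)
      · rw [mul_comm, add_comm]
        exact far_levels (l2 y) (l1 x hx) (by linarith)
    · rw [mul_zero]; positivity
    · rw [mul_zero]; linarith
  have i3 : ∑ x ∈ Λ, ∑ y ∈ Λ, (if 0 < f x ∧ 0 < f y ∧ lv y = lv x then
      4 * ((2 : ℝ) ^ lv x) ^ 2 else 0) * k x y ≤ 8 * s * ∑ x ∈ Λ, f x ^ 2 := by
    have e : ∑ x ∈ Λ, ∑ y ∈ Λ, (if 0 < f x ∧ 0 < f y ∧ lv y = lv x then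
        4 * ((2 : ℝ) ^ lv x) ^ 2 else 0) * k x y = ∑ x ∈ Λ', 4 * ((2 : ℝ) ^ lv x) ^ 2 *
          ∑ y ∈ Λ'.filter (fun y => lv y = lv x), k x y := by
      rw [hΛ', Finset.sum_filter]
      refine Finset.sum_congr rfl fun x _ => ?_
      by_cases hx : 0 < f x
      · rw [if_pos hx, Finset.filter_filter, Finset.sum_filter, Finset.mul_sum]
        refine Finset.sum_congr rfl fun y _ => ?_
        simp only [hx, true_and, ite_mul, mul_ite, zero_mul, mul_zero]
      · simp [hx]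
    have i4 : ∑ x ∈ Λ', f x ^ 2 ≤ ∑ x ∈ Λ, f x ^ 2 :=
      Finset.sum_le_sum_of_subset_of_nonneg (Finset.filter_subset _ _) fun _ _ _ => sq_nonneg _
    rw [e]
    refine le_trans ?_ (mul_le_mul_of_nonneg_left i4 (by positivity))
    rw [← Finset.sum_fiberwise_of_maps_to (g := lv) (t := Λ'.image lv)
      fun x hx => Finset.mem_image_of_mem _ hx,
      ← Finset.sum_fiberwise_of_maps_to (g := lv) (t := Λ'.image lv)
      fun x hx => Finset.mem_image_of_mem _ hx, Finset.mul_sum]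
    refine Finset.sum_le_sum fun i _ => ?_
    set A := Λ'.filter fun x => lv x = i with hA
    rw [Finset.sum_congr rfl (g := fun x => 4 * ((2 : ℝ) ^ i) ^ 2 * ∑ y ∈ A, k x y)
      fun x hx => by rw [(Finset.mem_filter.1 hx).2], ← Finset.mul_sum]
    have i5 := hk.prune hs A
    have i6 : (A.card : ℝ) * ((2 : ℝ) ^ i) ^ 2 ≤ ∑ x ∈ A, f x ^ 2 := by
      rw [← nsmul_eq_mul]
      refine Finset.card_nsmul_le_sum _ _ _ fun x hx => ?_
      obtain ⟨h1, h2⟩ := Finset.mem_filter.1 hx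
      rw [← h2]
      exact pow_le_pow_left₀ (by positivity) (l1 x (Finset.mem_filter.1 h1).2) 2
    nlinarith [mul_le_mul_of_nonneg_left i5 (show 0 ≤ 4 * ((2 : ℝ) ^ i) ^ 2 by positivity),
      mul_le_mul_of_nonneg_left i6 hs0]
  have i7 := div_le_div_of_nonneg_right (hk.schur hX f) (show (0 : ℝ) ≤ 2 ^ J by positivity)
  simp only [Finset.sum_add_distrib, ← Finset.sum_div] at i2
  refine i1.trans ?_
  rw [mul_assoc]
  refine mul_le_mul_of_nonneg_left ?_ (by positivity)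
  rw [add_mul, div_mul_eq_mul_div]
  linarith

end Vale.Agent.P165
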