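import Vale.Agent.P165.BK

/-!
Decomposing open connections into edge-disjoint pieces; oriented edges.
-/

namespace Vale.Agent.P165

open Vale.Agent.P151

variable {V : Type*} {ω : Set (Sym2 V)} {x y z d : V} {G : SimpleGraph V} {E : Finset (Sym2 V)}

lemma first_step (h : Conn ω x d) (hx : x ≠ d) :
    ∃ w, s(x, w) ∈ ω ∧ Conn (ω \ {s(x, w)}) w d := by
  have key : ∀ y, Conn ω y d → (y ≠ x ∧ Conn (ω \ touch {x}) y d) ∨
      ∃ w, s(x, w) ∈ ω ∧ Conn (ω \ touch {x}) w d := by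
    intro y hy
    induction hy using Relation.ReflTransGen.head_induction_on with
    | refl => exact Or.inl ⟨hx.symm, Conn.refl _ _⟩
    | @head a b hab _ ih =>
      rcases ih with ⟨h1, h2⟩ | ih
      · by_cases ha : a = x
        · exact Or.inr ⟨b, ha ▸ hab, h2⟩
        · refine Or.inl ⟨ha, Conn.trans (Conn.single ⟨hab, ?_⟩) h2⟩
          rw [mem_touch_iff]
          exact not_or.2 ⟨ha, h1⟩
      · exact Or.inr ih
  rcases key x h with h | ⟨w, h1, h2⟩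
  · exact absurd rfl h.1
  · refine ⟨w, h1, h2.mono (Set.sdiff_subset_sdiff_right ?_)⟩
    rw [Set.singleton_subset_iff, mem_touch_iff]
    exact Or.inl rfl

lemma trail_induction {P : Set (Sym2 V) → V → Prop} (hrefl : ∀ ω, P ω d)
    (hstep : ∀ ω x w, ω.Finite → s(x, w) ∈ ω → Conn (ω \ {s(x, w)}) w d → P (ω \ {s(x, w)}) w →
      P ω x) (hω : ω.Finite) (h : Conn ω x d) : P ω x := by
  induction hn : ω.ncard using Nat.strong_induction_on generalizing ω x with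
  | _ n ih =>
    by_cases hx : x = d
    · exact hx ▸ hrefl ω
    obtain ⟨w, h1, h2⟩ := first_step h hx
    exact hstep ω x w hω h1 h2 (ih _ (hn ▸ Set.ncard_sdiff_singleton_lt_of_mem h1 hω)
      (hω.subset Set.sdiff_subset) h2 rfl)

lemma conn_insert {γ : Set (Sym2 V)} {w : V} (h : Conn γ w y) : Conn (insert s(x, w) γ) x y :=
  (Conn.single (Set.mem_insert _ _)).trans (h.mono (Set.subset_insert _ _))

lemma sdiff_insert' {α : Type*} (s t : Set α) (a : α) : s \ insert a t = (s \ {a}) \ t := by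
  ext e; simp only [Set.mem_sdiff, Set.mem_insert_iff, Set.mem_singleton_iff]; tauto

/-- splitting at the first exit from `S` -/
lemma split_first (S : Set V) (hω : ω.Finite) (h : Conn ω x d) (hx : x ∈ S) :
    (d ∈ S ∧ ∃ γ ⊆ ω ∩ inside S, Conn γ x d) ∨ ∃ u ∈ S, ∃ v ∉ S, s(u, v) ∈ ω ∧
      ∃ γ ⊆ ω ∩ inside S, Conn γ x u ∧ Conn (ω \ γ) v d := by
  revert hx
  refine trail_induction (P := fun ω x => x ∈ S → (d ∈ S ∧ ∃ γ ⊆ ω ∩ inside S, Conn γ x d) ∨
    ∃ u ∈ S, ∃ v ∉ S, s(u, v) ∈ ω ∧ ∃ γ ⊆ ω ∩ inside S, Conn γ x u ∧ Conn (ω \ γ) v d)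
    (fun ω hd => Or.inl ⟨hd, ∅, Set.empty_subset _, Conn.refl _ _⟩) ?_ hω h
  intro ω x w _ he hc ih hx
  by_cases hw : w ∈ S
  · have hs : ∀ γ ⊆ (ω \ {s(x, w)}) ∩ inside S, insert s(x, w) γ ⊆ ω ∩ inside S := fun γ hγ =>
      Set.insert_subset ⟨he, mem_inside_iff.2 ⟨hx, hw⟩⟩
        (hγ.trans (Set.inter_subset_inter_left _ Set.sdiff_subset))
    rcases ih hw with ⟨hd, γ, g1, g2⟩ | ⟨u, hu, v, hv, huv, γ, g1, g2, g3⟩
    · exact Or.inl ⟨hd, _, hs γ g1, conn_insert g2⟩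
    · exact Or.inr ⟨u, hu, v, hv, huv.1, _, hs γ g1, conn_insert g2, by rwa [sdiff_insert']⟩
  · exact Or.inr ⟨x, hx, w, hw, he, ∅, Set.empty_subset _, Conn.refl _ _,
      hc.mono (Set.sdiff_subset_sdiff_right (Set.empty_subset _))⟩

/-- splitting at the last exit from `K` -/
lemma split_last (K : Set V) (hω : ω.Finite) (h : Conn ω x d) (hx : x ∈ K) (hd : d ∉ K) :
    ∃ w ∈ K, ∃ v ∉ K, s(w, v) ∈ ω ∧ ∃ γ ⊆ ω, Conn γ x w ∧ Conn ((ω \ γ) \ touch K) v d := by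
  have key : (x ∉ K ∧ Conn (ω \ touch K) x d) ∨
      ∃ w ∈ K, ∃ v ∉ K, s(w, v) ∈ ω ∧ ∃ γ ⊆ ω, Conn γ x w ∧ Conn ((ω \ γ) \ touch K) v d := by
    refine trail_induction (P := fun ω x => (x ∉ K ∧ Conn (ω \ touch K) x d) ∨
      ∃ w ∈ K, ∃ v ∉ K, s(w, v) ∈ ω ∧ ∃ γ ⊆ ω, Conn γ x w ∧ Conn ((ω \ γ) \ touch K) v d)
      (fun ω => Or.inl ⟨hd, Conn.refl _ _⟩) ?_ hω h
    intro ω x w _ he _ ih
    rcases ih with ⟨hw, hc⟩ | ⟨u, hu, v, hv, huv, γ, g1, g2, g3⟩
    · have hc' := hc.mono (Set.sdiff_subset_sdiff_left Set.sdiff_subset)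
      by_cases hx : x ∈ K
      · exact Or.inr ⟨x, hx, w, hw, he, ∅, Set.empty_subset _, Conn.refl _ _, by simpa using hc'⟩
      · refine Or.inl ⟨hx, Conn.trans (Conn.single ⟨he, ?_⟩) hc'⟩
        rw [mem_touch_iff]
        exact not_or.2 ⟨hx, hw⟩
    · exact Or.inr ⟨u, hu, v, hv, huv.1, _, Set.insert_subset he (g1.trans Set.sdiff_subset),
        conn_insert g2, by rwa [sdiff_insert']⟩
  exact key.resolve_left fun h => h.1 hx

lemma conn_erase (a b : V) (h : Conn ω x z) : Conn (ω \ {s(a, b)}) x z ∨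
    (Conn (ω \ {s(a, b)}) x a ∧ Conn (ω \ {s(a, b)}) b z) ∨
    (Conn (ω \ {s(a, b)}) x b ∧ Conn (ω \ {s(a, b)}) a z) := by
  induction h with
  | refl => exact Or.inl (Conn.refl _ _)
  | @tail u v _ h2 ih =>
    by_cases he : s(u, v) = s(a, b)
    · rcases Sym2.eq_iff.1 he with ⟨rfl, rfl⟩ | ⟨rfl, rfl⟩
      · rcases ih with ih | ih | ih
        exacts [Or.inr (Or.inl ⟨ih, Conn.refl _ _⟩), Or.inr (Or.inl ⟨ih.1, Conn.refl _ _⟩),
          Or.inl ih.1]
      · rcases ih with ih | ih | ih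
        exacts [Or.inr (Or.inr ⟨ih, Conn.refl _ _⟩), Or.inl ih.1,
          Or.inr (Or.inr ⟨ih.1, Conn.refl _ _⟩)]
    · have h3 : s(u, v) ∈ ω \ {s(a, b)} := ⟨h2, he⟩
      rcases ih with ih | ih | ih
      exacts [Or.inl (ih.tail h3), Or.inr (Or.inl ⟨ih.1, ih.2.tail h3⟩),
        Or.inr (Or.inr ⟨ih.1, ih.2.tail h3⟩)]

lemma conn_off {v : V} (hv : ¬ Conn ω x v) (h : Conn ω v y) : Conn (ω \ touch (Cl ω x)) v y := by
  have : Disjoint (Cl ω v) (Cl ω x) := by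
    rw [Set.disjoint_left]
    exact fun c h1 h2 => hv (Conn.trans h2 (Conn.symm h1))
  have h2 : y ∈ Cl (ω \ touch (Cl ω x)) v := by rw [Cl_sdiff_touch this]; exact h
  exact h2

lemma dis_of_not_conn {a b : V} (hn : ¬ Conn ω x b) (h1 : Conn ω x a) (h2 : Conn ω b y) :
    Dis (fun γ => Conn γ x a) (fun γ => Conn γ b y) ω :=
  ⟨ω ∩ touch (Cl ω x), ω \ touch (Cl ω x), Set.inter_subset_left, Set.sdiff_subset,
    Set.disjoint_sdiff_right.mono_left Set.inter_subset_right,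
    h1.of_subset fun _ _ ha _ he => ⟨he, mem_touch_iff.2 (Or.inl ha)⟩, conn_off hn h2⟩

/-- the tree splitting -/
lemma split_tree (hω : ω.Finite) (h : Conn ω x y) (h' : Conn ω x z) :
    ∃ b, Dis (fun γ => Conn γ x b) (Dis (fun γ => Conn γ b y) fun γ => Conn γ b z) ω := by
  revert h'
  refine trail_induction (P := fun ω x => Conn ω x z →
    ∃ b, Dis (fun γ => Conn γ x b) (Dis (fun γ => Conn γ b y) fun γ => Conn γ b z) ω)
    (fun ω h => ⟨y, ∅, ω, Set.empty_subset _, le_rfl, Set.empty_disjoint _, Conn.refl _ _,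
      ∅, ω, Set.empty_subset _, le_rfl, Set.empty_disjoint _, Conn.refl _ _, h⟩) ?_ hω h
  intro ω x w _ he hc ih hz
  by_cases hw : Conn (ω \ {s(x, w)}) w z
  · obtain ⟨b, γ₁, γ₂, g1, g2, g3, g4, g5⟩ := ih hw
    exact ⟨b, insert s(x, w) γ₁, γ₂, Set.insert_subset he (g1.trans Set.sdiff_subset),
      g2.trans Set.sdiff_subset, Set.disjoint_insert_left.2 ⟨fun h => (g2 h).2 rfl, g3⟩,
      conn_insert g4, g5⟩
  · have hxz : Conn (ω \ {s(x, w)}) x z := by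
      rcases conn_erase x w hz with h | h | h
      exacts [h, absurd h.2 hw, h.2]
    obtain ⟨γ₁, γ₂, g1, g2, g3, g4, g5⟩ :=
      dis_of_not_conn (fun h => hw (h.trans hxz)) hc hxz
    exact ⟨x, ∅, ω, Set.empty_subset _, le_rfl, Set.empty_disjoint _, Conn.refl _ _,
      insert s(x, w) γ₁, γ₂, Set.insert_subset he (g1.trans Set.sdiff_subset),
      g2.trans Set.sdiff_subset, Set.disjoint_insert_left.2 ⟨fun h => (g2 h).2 rfl, g3⟩,
      conn_insert g4, g5⟩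

lemma mem_Nb_of_conn (hω : ω.Finite) (hG : ω ⊆ G.edgeSet) (h : Conn ω x d) :
    x ∈ Nb G ω.ncard {d} := by
  revert hG
  refine trail_induction (P := fun ω x => ω ⊆ G.edgeSet → x ∈ Nb G ω.ncard {d})
    (fun ω _ => subset_Nb rfl) ?_ hω h
  intro ω x w hω he _ ih hG
  rw [← Set.ncard_sdiff_singleton_add_one he hω]
  exact mem_Nb_of_adj (ih (Set.sdiff_subset.trans hG)) (G.adj_symm (hG he))

/-! ### Oriented edges -/

open Classical in
/-- endpoints of edges of `E` -/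
noncomputable def verts (E : Finset (Sym2 V)) : Finset V := E.biUnion Sym2.toFinset

open Classical in
/-- oriented edges of `E` -/
noncomputable def darts (E : Finset (Sym2 V)) : Finset (V × V) :=
  (verts E ×ˢ verts E).filter fun d => s(d.1, d.2) ∈ E

lemma mem_verts {a b : V} (h : s(a, b) ∈ E) : a ∈ verts E ∧ b ∈ verts E := by
  classical
  simp only [verts, Finset.mem_biUnion, Sym2.mem_toFinset]
  exact ⟨⟨_, h, Sym2.mem_mk_left _ _⟩, ⟨_, h, Sym2.mem_mk_right _ _⟩⟩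

lemma mem_darts {d : V × V} : d ∈ darts E ↔ s(d.1, d.2) ∈ E := by
  simp only [darts, Finset.mem_filter, Finset.mem_product]
  exact ⟨fun h => h.2, fun h => ⟨mem_verts h, h⟩⟩

lemma mem_verts_of_conn (hω : ω ⊆ E) (h : Conn ω x y) : y = x ∨ y ∈ verts E := by
  induction h with
  | refl => exact Or.inl rfl
  | tail _ h2 _ => exact Or.inr (mem_verts (hω h2)).2

/-- `E` is a finite set of edges of `G` -/
def Sub (G : SimpleGraph V) (E : Finset (Sym2 V)) : Prop := (E : Set (Sym2 V)) ⊆ G.edgeSet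

lemma sum_darts (hE : Sub G E) (g : V × V → ℝ) :
    ∑ d ∈ darts E, g d = ∑ e ∈ E, Sym2.lift ⟨fun a b => g (a, b) + g (b, a),
      fun _ _ => add_comm _ _⟩ e := by
  classical
  rw [← Finset.sum_fiberwise_of_maps_to (g := fun d : V × V => s(d.1, d.2)) (t := E)
    fun d hd => mem_darts.1 hd]
  refine Finset.sum_congr rfl fun e he => ?_
  induction e with
  | h a b =>
    have hab : a ≠ b := (show G.Adj a b from hE he).ne
    have : (darts E).filter (fun d : V × V => s(d.1, d.2) = s(a, b)) = {(a, b), (b, a)} := by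
      ext ⟨u, v⟩
      simp only [Finset.mem_filter, mem_darts, Finset.mem_insert, Finset.mem_singleton,
        Prod.mk.injEq, Sym2.eq_iff]
      refine ⟨fun h => h.2, fun h => ⟨?_, h⟩⟩
      rcases h with ⟨rfl, rfl⟩ | ⟨rfl, rfl⟩
      exacts [he, Sym2.eq_swap ▸ he]
    rw [this, Finset.sum_pair (by simp [hab]), Sym2.lift_mk]

lemma sum_darts_le (hE : Sub G E) {g : V × V → ℝ} {h : Sym2 V → ℝ}
    (H : ∀ a b, s(a, b) ∈ E → g (a, b) + g (b, a) ≤ h s(a, b)) :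
    ∑ d ∈ darts E, g d ≤ ∑ e ∈ E, h e := by
  rw [sum_darts hE]
  refine Finset.sum_le_sum fun e he => ?_
  induction e with
  | h a b => exact H a b he

lemma le_sum_darts (hE : Sub G E) {g : V × V → ℝ} {h : Sym2 V → ℝ}
    (H : ∀ a b, s(a, b) ∈ E → h s(a, b) ≤ g (a, b) + g (b, a)) :
    ∑ e ∈ E, h e ≤ ∑ d ∈ darts E, g d := by
  rw [sum_darts hE]
  refine Finset.sum_le_sum fun e he => ?_
  induction e with
  | h a b => exact H a b he

lemma sum_darts_swap (g : V × V → ℝ) : ∑ d ∈ darts E, g d.swap = ∑ d ∈ darts E, g d := by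
  refine Finset.sum_nbij' Prod.swap Prod.swap ?_ ?_ (fun _ _ => rfl) (fun _ _ => rfl)
    fun _ _ => rfl
  all_goals
    intro d hd
    rw [mem_darts] at hd ⊢
    rwa [Sym2.eq_swap]

lemma sum_darts_fst {Δ : ℕ} (hG : DegLe G Δ) (hE : Sub G E) {Λ : Finset V} (hΛ : verts E ⊆ Λ)
    {g : V → ℝ} (hg : ∀ w, 0 ≤ g w) : ∑ d ∈ darts E, g d.1 ≤ Δ * ∑ w ∈ Λ, g w := by
  classical
  rw [← Finset.sum_fiberwise_of_maps_to (g := Prod.fst) (t := Λ)
    fun d hd => hΛ (mem_verts (mem_darts.1 hd)).1, Finset.mul_sum]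
  refine Finset.sum_le_sum fun w _ => ?_
  rw [Finset.sum_congr rfl (g := fun _ => g w) fun d hd => by rw [(Finset.mem_filter.1 hd).2],
    Finset.sum_const, nsmul_eq_mul]
  refine mul_le_mul_of_nonneg_right ?_ (hg w)
  obtain ⟨s, hs, hs'⟩ := hG w
  have : ((darts E).filter fun d => d.1 = w) ⊆ s.image fun v => (w, v) := by
    rintro ⟨a, b⟩ hd
    obtain ⟨h1, h2⟩ := Finset.mem_filter.1 hd
    obtain rfl : a = w := h2
    exact Finset.mem_image.2 ⟨b, hs' b (hE (mem_darts.1 h1)), rfl⟩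
  exact_mod_cast (Finset.card_le_card this).trans (Finset.card_image_le.trans hs)

lemma sum_darts_snd {Δ : ℕ} (hG : DegLe G Δ) (hE : Sub G E) {Λ : Finset V} (hΛ : verts E ⊆ Λ)
    {g : V → ℝ} (hg : ∀ w, 0 ≤ g w) : ∑ d ∈ darts E, g d.2 ≤ Δ * ∑ w ∈ Λ, g w := by
  rw [← sum_darts_swap]
  exact sum_darts_fst hG hE hΛ hg

end Vale.Agent.P165
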