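import Vale.Agent.P165.Two
import Vale.Agent.P151.Bridge

/-!
Quasi-transitive graphs: comparison of susceptibilities, and the near-critical regime.
-/

namespace Vale.Agent.P165

open Vale.Agent.P151

variable {V : Type*} {G : SimpleGraph V} {E E' : Finset (Sym2 V)} {p t : ℝ} {x y z : V} {Δ D : ℕ}

/-- standing assumptions -/
structure QT (G : SimpleGraph V) (Δ D : ℕ) : Prop where
  deg : DegLe G Δ
  pos : 0 < Δ
  hom : ∀ x y, ∃ φ : G ≃g G, φ x ∈ Nb G D {y}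
  conn : G.Preconnected
  inf : Infinite V

/-- action of an automorphism on edges -/
def em (φ : G ≃g G) : Sym2 V ↪ Sym2 V := ⟨Sym2.map φ, Sym2.map.injective φ.injective⟩

lemma em_mk (φ : G ≃g G) (a b : V) : em φ s(a, b) = s(φ a, φ b) := rfl

lemma Sub.map (h : Sub G E) (φ : G ≃g G) : Sub G (E.map (em φ)) := by
  intro e he
  obtain ⟨e', he', rfl⟩ := Finset.mem_map.1 he
  clear he
  induction e' with
  | h a b => exact φ.map_adj_iff.2 (show G.Adj a b from h he')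

lemma conn_map_iff (φ : G ≃g G) {ω : Set (Sym2 V)} :
    Conn (em φ '' ω) (φ x) (φ y) ↔ Conn ω x y := by
  refine ⟨fun h => ?_, Conn.map φ⟩
  have := h.map φ.symm
  simp only [RelIso.symm_apply_apply] at this
  refine this.mono ?_
  rintro _ ⟨_, ⟨e, he, rfl⟩, rfl⟩
  induction e with
  | h a b => simpa [em_mk] using he

lemma Pr_map {ι κ : Type*} (E : Finset ι) (f : ι ↪ κ) (A : Set κ → Prop) :
    Pr (E.map f) p A = Pr E p fun ω => A (f '' ω) := Ex_map f _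

lemma tau_map (φ : G ≃g G) : tau (E.map (em φ)) p (φ x) (φ y) = tau E p x y := by
  unfold tau
  rw [Pr_map]
  exact Pr_congr fun _ _ => conn_map_iff φ

lemma Bnd.opBnd {X : ℝ} (h : Bnd G p X) (h0 : 0 ≤ p) (h1 : p ≤ 1) : OpBnd G p X :=
  fun E hE Λ => (ker_tau h0 h1).opK_of_rows fun x _ => h E hE x Λ

lemma tau_ge_ball (hG : DegLe G Δ) (h0 : 0 ≤ p) (h1 : p ≤ 1) {R : ℕ} {o : V}
    (hE : EB G R o ⊆ E) (hx : x ∈ Nb G R {o}) (hy : y ∈ Nb G R {o}) :
    p ^ ((Δ + 1) ^ R * Δ) ≤ tau E p x y := by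
  refine (pow_le_pow_of_le_one h0 h1 (hG.card_EB R o)).trans ?_
  rw [← Pr_all_open (p := p) hE]
  refine Pr_mono h0 h1 fun ω _ h => ?_
  rw [hG.coe_EB] at h
  exact (conn_of_mem_Nb hx h).symm.trans (conn_of_mem_Nb hy h)

lemma QT.not_opBnd (h : QT G Δ D) (B : ℝ) : ¬ OpBnd G 1 B := by
  intro hB
  have := h.inf
  obtain ⟨n, hn⟩ := exists_nat_gt (max B 0)
  obtain ⟨Λ, hΛ⟩ := Infinite.exists_subset_card_eq V n
  obtain ⟨o⟩ : Nonempty V := inferInstance
  obtain ⟨R, hR⟩ := Br.exists_Nb_finite h.conn o Λ.finite_toSet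
  have i1 := hB (EB G R o) EB_subset_edgeSet Λ (fun _ => 1) fun _ => zero_le_one
  have i2 : ∑ x ∈ Λ, ∑ y ∈ Λ, (1 : ℝ) ≤ Bf Λ (tau (EB G R o) 1) (fun _ => 1) fun _ => 1 :=
    Finset.sum_le_sum fun x hx => Finset.sum_le_sum fun y hy => by
      simpa using tau_ge_ball h.deg zero_le_one le_rfl le_rfl (hR hx) (hR hy)
  simp only [Finset.sum_const, hΛ, nsmul_eq_mul, mul_one, one_pow] at i1 i2
  nlinarith [le_max_left B 0, le_max_right B 0]

lemma QT.lt_one (h : QT G Δ D) {B : ℝ} (hB : OpBnd G p B) (h1 : p ≤ 1) : p < 1 :=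
  lt_of_le_of_ne h1 fun e => h.not_opBnd B (e ▸ hB)

lemma QT.lt_one' (h : QT G Δ D) {B : ℝ} (hB : Bnd G p B) (h0 : 0 ≤ p) (h1 : p ≤ 1) : p < 1 :=
  h.lt_one (hB.opBnd h0 h1) h1

lemma Ex_zero {ι : Type*} (E : Finset ι) (F : Set ι → ℝ) : Ex E 0 F = F ∅ := by
  classical
  induction E using Finset.induction_on with
  | empty => simp
  | insert e E he ih => rw [Ex_insert he, ih]; ring

lemma bnd_zero : Bnd G 0 1 := by
  classical
  intro E _ x Λ
  have : ∀ y, tau E 0 x y = if y = x then 1 else 0 := fun y => by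
    unfold tau Pr
    rw [Ex_zero]
    split_ifs with h
    · exact ind_of (h ▸ Conn.refl _ _)
    · exact ind_of_not fun hc => by
        simpa [h, verts] using mem_verts_of_conn (E := ∅) (by simp) hc
  simp only [this, Finset.sum_ite_eq']
  split_ifs <;> norm_num

/-- the small parameter -/
noncomputable def p0 (Δ : ℕ) : ℝ := 1 / (8 * Δ)

lemma QT.p0_pos (h : QT G Δ D) : 0 < p0 Δ := by
  have := h.pos
  unfold p0; positivity

lemma QT.p0_le (h : QT G Δ D) : p0 Δ ≤ 1 := by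
  have : (1 : ℝ) ≤ Δ := by exact_mod_cast h.pos
  unfold p0
  rw [div_le_one (by positivity)]; linarith

lemma QT.bnd_p0 (h : QT G Δ D) : Bnd G (p0 Δ) 2 := by
  simpa using bnd_zero.window h.deg h.pos one_pos le_rfl h.p0_pos.le h.p0_le (by simp [p0])

lemma le_of_not_Bnd {X X' : ℝ} (h : ¬ Bnd G t X) (h' : Bnd G p X') (h0 : 0 ≤ t) (h1 : p ≤ 1)
    (hX : X' ≤ X) : p ≤ t := by
  by_contra hc
  exact h (h'.mono h0 (not_le.1 hc).le h1 hX)

/-- the comparison constant -/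
noncomputable def c0 (Δ D : ℕ) : ℝ := p0 Δ ^ ((Δ + 1) ^ D * Δ)

lemma QT.c0_pos (h : QT G Δ D) : 0 < c0 Δ D := pow_pos h.p0_pos _

lemma QT.c0_le (h : QT G Δ D) : c0 Δ D ≤ 1 := pow_le_one₀ h.p0_pos.le h.p0_le

lemma QT.low_of_not_Bnd (h : QT G Δ D) {X : ℝ} (h0 : 0 ≤ p) (h1 : p ≤ 1) (hX : 2 ≤ X)
    (hn : ¬ Bnd G p X) : Low G p (c0 Δ D * X) := by
  classical
  have hp := le_of_not_Bnd hn h.bnd_p0 h0 h.p0_le hX
  unfold Bnd at hn
  push Not at hn
  obtain ⟨E, hE, x, Λ, hΛ⟩ := hn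
  intro z
  obtain ⟨φ, hφ⟩ := h.hom x z
  refine ⟨E.map (em φ) ∪ EB G D z, (hE.map φ).union EB_subset_edgeSet,
    Λ.map φ.toEquiv.toEmbedding, ?_⟩
  rw [Finset.sum_map]
  refine (mul_le_mul_of_nonneg_left hΛ.le h.c0_pos.le).trans ?_
  rw [Finset.mul_sum]
  refine Finset.sum_le_sum fun y _ => ?_
  have i1 := (pow_le_pow_left₀ h.p0_pos.le hp _).trans (tau_ge_ball (E := E.map (em φ) ∪ EB G D z)
    h.deg h0 h1 Finset.subset_union_right (subset_Nb rfl) hφ)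
  have i2 : tau E p x y ≤ tau (E.map (em φ) ∪ EB G D z) p (φ x) (φ y) := by
    rw [← tau_map φ]; exact tau_mono_E h0 h1 Finset.subset_union_left
  refine (mul_le_mul i1 i2 (tau_nonneg h0 h1) (tau_nonneg h0 h1)).trans
    ((Pr_harris h0 h1 (inc_conn _ _) (inc_conn _ _)).trans ?_)
  exact Pr_mono h0 h1 fun ω _ h => h.1.trans h.2

lemma QT.regime (h : QT G Δ D) {X : ℝ} (hX : 1 ≤ X) :
    ∃ p, 0 ≤ p ∧ p ≤ 1 ∧ Bnd G p (2 * X) ∧ ¬ Bnd G p X := by
  by_contra hc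
  push Not at hc
  have hΔ : (0 : ℝ) < Δ := by exact_mod_cast h.pos
  set ε : ℝ := 1 / (8 * Δ * X) with hε
  have ε0 : 0 < ε := by positivity
  have key : ∀ n : ℕ, Bnd G (min (n * ε) 1) X := by
    intro n
    induction n with
    | zero => simpa using bnd_zero.mono le_rfl le_rfl zero_le_one hX
    | succ n ih =>
      have a0 : 0 ≤ min (n * ε) 1 := le_min (by positivity) zero_le_one
      have a1 : min (n * ε) 1 ≤ min ((n + 1 : ℕ) * ε) 1 :=
        min_le_min_right _ (by push_cast; nlinarith)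
      refine hc _ (a0.trans a1) (min_le_right _ _)
        (ih.window h.deg h.pos (by linarith) a0 a1 (min_le_right _ _) ?_)
      rw [← hε]
      push_cast
      rcases le_total (n * ε) 1 with h | h
      · rw [min_eq_left h]; linarith [min_le_left ((n + 1) * ε) 1]
      · rw [min_eq_right h]; linarith [min_le_right ((n + 1) * ε) 1]
  obtain ⟨n, hn⟩ := exists_nat_gt (1 / ε)
  rw [div_lt_iff₀ ε0] at hn
  have := key n
  rw [min_eq_right hn.le] at this
  exact h.not_opBnd X (this.opBnd zero_le_one le_rfl)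

/-- a subcritical parameter multiplicatively close to all larger subcritical ones -/
lemma QT.near_top (h : QT G Δ D) {r : ℝ} (hr : 1 < r) :
    ∃ p' X', 0 < p' ∧ p' ≤ 1 ∧ Bnd G p' X' ∧ ∀ p X, p ≤ 1 → Bnd G p X → p ≤ r * p' := by
  set T : Set ℝ := {p | p ≤ 1 ∧ ∃ X, Bnd G p X}
  have hT : p0 Δ ∈ T := ⟨h.p0_le, 2, h.bnd_p0⟩
  have hb : BddAbove T := ⟨1, fun p hp => hp.1⟩
  have h0 : 0 < sSup T := h.p0_pos.trans_le (le_csSup hb hT)
  have r0 : 0 < r := by linarith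
  obtain ⟨p', ⟨h1, X', h2⟩, h3⟩ := exists_lt_of_lt_csSup ⟨_, hT⟩ (div_lt_self h0 hr)
  refine ⟨p', X', lt_trans (by positivity) h3, h1, h2, fun p X a1 a2 => ?_⟩
  rw [div_lt_iff₀ r0] at h3
  linarith [le_csSup hb (show p ∈ T from ⟨a1, X, a2⟩)]

end Vale.Agent.P165
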