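import Vale.Agent.P165.Setup

/-!
Simon-Lieb inequality, short connections.
-/

namespace Vale.Agent.P165

open Vale.Agent.P151

variable {V : Type*} {G : SimpleGraph V} {E E' : Finset (Sym2 V)} {p t : ℝ} {x y z : V} {Δ D : ℕ}

/-- expected number of boundary edges of `S` reached from `x` inside `S` -/
noncomputable def phi (E : Finset (Sym2 V)) (p : ℝ) (x : V) (S : Set V) : ℝ :=
  ∑ d ∈ darts E, ind (d.1 ∈ S ∧ d.2 ∉ S) * Pr E p fun ω => Conn (ω ∩ inside S) x d.1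

/-- every vertex has a bounded neighbourhood with small boundary -/
def Fam (E : Finset (Sym2 V)) (p : ℝ) (N : ℕ) : Prop :=
  ∀ x, ∃ S : Finset V, x ∈ S ∧ S.card ≤ N ∧ phi E p x S ≤ 1 / 2

/-- connection by at most `l` edges -/
def SConn (l : ℕ) (ω : Set (Sym2 V)) (x y : V) : Prop :=
  ∃ γ : Finset (Sym2 V), (γ : Set (Sym2 V)) ⊆ ω ∧ γ.card ≤ l ∧ Conn γ x y

/-- connection to a set by at most `l` edges -/
def SLink (l : ℕ) (ω : Set (Sym2 V)) (x : V) (T : Set V) : Prop := ∃ y ∈ T, SConn l ω x y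

/-- bound on the expected size of intrinsic balls -/
def SBnd (G : SimpleGraph V) (p : ℝ) (l : ℕ) (M : ℝ) : Prop :=
  ∀ E, Sub G E → ∀ (w : V) (Λ : Finset V), ∑ z ∈ Λ, Pr E p (fun ω => SConn l ω z w) ≤ M

lemma SConn.mono {l l' : ℕ} {ω ω' : Set (Sym2 V)} (h : SConn l ω x y) (hl : l ≤ l')
    (hω : ω ⊆ ω') : SConn l' ω' x y := by
  obtain ⟨γ, g1, g2, g3⟩ := h
  exact ⟨γ, g1.trans hω, g2.trans hl, g3⟩

lemma SConn.conn {l : ℕ} {ω : Set (Sym2 V)} (h : SConn l ω x y) : Conn ω x y := by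
  obtain ⟨γ, g1, -, g3⟩ := h
  exact g3.mono g1

lemma SConn.symm {l : ℕ} {ω : Set (Sym2 V)} (h : SConn l ω x y) : SConn l ω y x := by
  obtain ⟨γ, g1, g2, g3⟩ := h
  exact ⟨γ, g1, g2, g3.symm⟩

lemma SConn.trans {l l' : ℕ} {ω : Set (Sym2 V)} (h : SConn l ω x y) (h' : SConn l' ω y z) :
    SConn (l + l') ω x z := by
  classical
  obtain ⟨γ, g1, g2, g3⟩ := h
  obtain ⟨γ', k1, k2, k3⟩ := h'
  refine ⟨γ ∪ γ', ?_, (Finset.card_union_le _ _).trans (add_le_add g2 k2), ?_⟩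
  · rw [Finset.coe_union]; exact Set.union_subset g1 k1
  · rw [Finset.coe_union]
    exact (g3.mono Set.subset_union_left).trans (k3.mono Set.subset_union_right)

lemma sconn_of_subset {l : ℕ} {ω γ : Set (Sym2 V)} {F : Finset (Sym2 V)} (h : Conn γ x y)
    (h1 : γ ⊆ ω) (h2 : γ ⊆ F) (h3 : F.card ≤ l) : SConn l ω x y := by
  classical
  refine ⟨F.filter (· ∈ γ), fun e he => h1 (Finset.mem_filter.1 he).2,
    (Finset.card_filter_le _ _).trans h3, h.mono fun e he => Finset.mem_filter.2 ⟨h2 he, he⟩⟩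

lemma inc_sconn (l : ℕ) (x y : V) : Inc fun ω => SConn l ω x y := fun _ _ h hc => hc.mono le_rfl h

lemma inc_slink (l : ℕ) (x : V) (T : Set V) : Inc fun ω => SLink l ω x T :=
  fun _ _ h ⟨y, hy, hc⟩ => ⟨y, hy, hc.mono le_rfl h⟩

lemma inc_link (S T : Set V) : Inc fun ω => Link ω S T := fun _ _ h hc => hc.mono h le_rfl le_rfl

lemma SConn.mem_Nb {l : ℕ} {ω : Set (Sym2 V)} (h : SConn l ω x y) (hω : ω ⊆ G.edgeSet) :
    x ∈ Nb G l {y} := by
  obtain ⟨γ, g1, g2, g3⟩ := h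
  have := mem_Nb_of_conn γ.finite_toSet (g1.trans hω) g3
  rw [Set.ncard_coe_finset] at this
  exact Nb_mono_left g2 this

lemma SBnd.mono {l l' : ℕ} {M : ℝ} (h : SBnd G p l M) (h0 : 0 ≤ p) (h1 : p ≤ 1) (hl : l' ≤ l) :
    SBnd G p l' M := fun E hE w Λ =>
  (Finset.sum_le_sum fun _ _ => Pr_mono h0 h1 fun _ _ h => h.mono hl le_rfl).trans (h E hE w Λ)

lemma Bnd.sBnd {X r : ℝ} (h : Bnd G p X) (h0 : 0 < p) (hp : p ≤ t) (h1 : t ≤ 1) (hr : t ≤ r * p)
    (l : ℕ) : SBnd G t l (r ^ l * X) := by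
  intro E hE w Λ
  have r0 : 0 ≤ r := by nlinarith
  refine (Finset.sum_le_sum fun z _ => Pr_thin h0 hp h1 hr l (inc_conn z w) fun ω h => h).trans ?_
  rw [← Finset.mul_sum]
  refine mul_le_mul_of_nonneg_left (le_trans (le_of_eq ?_) (h E hE w Λ)) (by positivity)
  exact Finset.sum_congr rfl fun z _ => tau_symm _ _

lemma Bnd.fam (hG : DegLe G Δ) {X : ℝ} (h : Bnd G p X) (h0 : 0 ≤ p) (h1 : p ≤ 1) :
    ∃ N, ∀ E, Sub G E → Fam E p N := by
  classical
  obtain ⟨m, hm⟩ := exists_nat_gt (2 * (Δ * X))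
  refine ⟨(Δ + 1) ^ m, fun E hE x => ?_⟩
  have i1 : ∑ n ∈ Finset.range m, phi E p x (Nb G n {x}) ≤ Δ * X := by
    unfold phi
    rw [Finset.sum_comm]
    refine le_trans (Finset.sum_le_sum fun d hd => ?_) ((sum_darts_fst hG hE le_rfl
      (g := tau E p x) fun _ => tau_nonneg h0 h1).trans
      (mul_le_mul_of_nonneg_left (h E hE x _) (by positivity)))
    have hadj : G.Adj d.1 d.2 := hE (mem_darts.1 hd)
    refine (Finset.sum_le_sum fun n _ => mul_le_mul_of_nonneg_left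
      (Pr_mono h0 h1 (B := fun ω => Conn ω x d.1) fun ω _ h => h.mono Set.inter_subset_left)
      (ind_nonneg _)).trans ?_
    rw [← Finset.sum_mul]
    refine mul_le_of_le_one_left (tau_nonneg h0 h1) ?_
    have : ∀ m : ℕ, ∑ n ∈ Finset.range m, ind (d.1 ∈ Nb G n {x} ∧ d.2 ∉ Nb G n {x}) ≤
        ind (d.2 ∈ Nb G m {x}) := by
      intro m
      induction m with
      | zero => simpa using ind_nonneg _
      | succ m ih =>
        rw [Finset.sum_range_succ]
        by_cases c : d.2 ∈ Nb G m {x}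
        · rw [ind_of_not (fun h => h.2 c), ind_of (Nb_subset_succ c)]
          linarith [ind_le_one (d.2 ∈ Nb G m {x})]
        · rw [ind_of_not c] at ih
          linarith [ind_mono (show d.1 ∈ Nb G m {x} ∧ d.2 ∉ Nb G m {x} → d.2 ∈ Nb G (m + 1) {x}
            from fun h => mem_Nb_of_adj h.1 hadj)]
    exact (this m).trans (ind_le_one _)
  by_contra hc
  push Not at hc
  have i2 : ∀ n ∈ Finset.range m, (1 / 2 : ℝ) ≤ phi E p x (Nb G n {x}) := fun n hn => by
    obtain ⟨s, hs, hs'⟩ := hG.exists_Nb {x} n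
    rw [Finset.coe_singleton] at hs'
    have hf := hG.finite_Nb (Set.finite_singleton x) n
    have := hc hf.toFinset (hf.mem_toFinset.2 (subset_Nb rfl))
      ((Finset.card_le_card (by simpa using hs')).trans (hs.trans (by
        simpa using Nat.pow_le_pow_right (Nat.succ_pos Δ) (Finset.mem_range.1 hn).le)))
    rw [hf.coe_toFinset] at this
    exact this.le
  have := Finset.card_nsmul_le_sum _ _ _ i2
  rw [Finset.card_range, nsmul_eq_mul] at this
  linarith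

lemma Pr_exit_le (h0 : 0 ≤ p) (h1 : p ≤ 1) (S : Set V) {A : Set (Sym2 V) → Prop}
    (B : V → Set (Sym2 V) → Prop) (hB : ∀ v, Inc (B v))
    (h : ∀ ω : Set (Sym2 V), ω ⊆ E → A ω → ∃ u ∈ S, ∃ v ∉ S, s(u, v) ∈ E ∧
      Dis (fun γ => Conn (γ ∩ inside S) x u) (B v) ω) :
    Pr E p A ≤ ∑ d ∈ darts E, ind (d.1 ∈ S ∧ d.2 ∉ S) *
      Pr E p (fun ω => Conn (ω ∩ inside S) x d.1) * Pr E p (B d.2) := by
  refine (Pr_le_sum h0 h1 (darts E) (fun d ω => (d.1 ∈ S ∧ d.2 ∉ S) ∧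
    Dis (fun γ => Conn (γ ∩ inside S) x d.1) (B d.2) ω) fun ω hω hA => ?_).trans
    (Finset.sum_le_sum fun d _ => ?_)
  · obtain ⟨u, hu, v, hv, he, hd⟩ := h ω hω hA
    exact ⟨(u, v), mem_darts.2 he, ⟨hu, hv⟩, hd⟩
  · unfold Pr
    simp only [ind_and (d.1 ∈ S ∧ d.2 ∉ S), Ex_mul_left, mul_assoc]
    exact mul_le_mul_of_nonneg_left (bk h0 h1 (inc_conn_in _ _ _) (hB _)) (ind_nonneg _)

lemma simon_lieb (h0 : 0 ≤ p) (h1 : p ≤ 1) {S : Set V} (hx : x ∈ S) :
    tau E p x y ≤ ind (y ∈ S) + ∑ d ∈ darts E, ind (d.1 ∈ S ∧ d.2 ∉ S) *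
      Pr E p (fun ω => Conn (ω ∩ inside S) x d.1) * tau E p d.2 y := by
  by_cases hy : y ∈ S
  · rw [ind_of hy]
    exact (tau_le_one h0 h1).trans (le_add_of_nonneg_right (Finset.sum_nonneg fun d _ =>
      mul_nonneg (mul_nonneg (ind_nonneg _) (Pr_nonneg h0 h1 _)) (tau_nonneg h0 h1)))
  rw [ind_of_not hy, zero_add]
  refine Pr_exit_le h0 h1 S (fun v ω => Conn ω v y) (fun v => inc_conn v y) fun ω hω h => ?_
  obtain h | ⟨u, hu, v, hv, he, γ, g1, g2, g3⟩ := split_first S (finite_of_sub hω) h hx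
  · exact absurd h.1 hy
  · exact ⟨u, hu, v, hv, hω he, γ, ω \ γ, g1.trans Set.inter_subset_left, Set.sdiff_subset,
      Set.disjoint_sdiff_right, g2.mono fun e he => ⟨he, (g1 he).2⟩, g3⟩

lemma sum_ind_mem_le (Λ S : Finset V) : ∑ y ∈ Λ, ind (y ∈ (S : Set V)) ≤ S.card := by
  classical
  simp only [ind, Finset.mem_coe, Finset.sum_ite_mem, Finset.sum_const, nsmul_eq_mul, mul_one]
  exact_mod_cast Finset.card_le_card Finset.inter_subset_right

lemma bnd_of_fam (h0 : 0 ≤ p) (h1 : p ≤ 1) {N : ℕ} (h : ∀ E, Sub G E → Fam E p N) :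
    Bnd G p (2 * N) := by
  intro E hE x Λ
  have hb : BddAbove (Set.range fun x => ∑ y ∈ Λ, tau E p x y) :=
    ⟨Λ.card, by
      rintro _ ⟨x, rfl⟩
      simpa using Finset.sum_le_card_nsmul Λ _ 1 fun y _ => tau_le_one h0 h1⟩
  set m := ⨆ x, ∑ y ∈ Λ, tau E p x y with hm
  have hle : ∀ x, ∑ y ∈ Λ, tau E p x y ≤ m := le_ciSup hb
  have m0 : 0 ≤ m := (Finset.sum_nonneg fun _ _ => tau_nonneg h0 h1).trans (hle x)
  have : Nonempty V := ⟨x⟩
  have key : m ≤ N + 1 / 2 * m := ciSup_le fun x => by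
    obtain ⟨S, s1, s2, s3⟩ := h E hE x
    refine (Finset.sum_le_sum fun y _ =>
      simon_lieb h0 h1 (E := E) (S := S) (y := y) (Finset.mem_coe.2 s1)).trans ?_
    rw [Finset.sum_add_distrib, Finset.sum_comm]
    refine add_le_add ((sum_ind_mem_le Λ S).trans (by exact_mod_cast s2))
      (le_trans ?_ (mul_le_mul_of_nonneg_right s3 m0))
    unfold phi
    rw [Finset.sum_mul]
    refine Finset.sum_le_sum fun d _ => ?_
    rw [← Finset.mul_sum]
    exact mul_le_mul_of_nonneg_left (hle _) (mul_nonneg (ind_nonneg _) (Pr_nonneg h0 h1 _))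
  linarith [hle x]

/-- crossing `j` successive neighbourhoods disjointly -/
def Far (E : Finset (Sym2 V)) (S : V → Set V) : ℕ → V → Set (Sym2 V) → Prop
  | 0, _, _ => True
  | j + 1, x, ω => ∃ u ∈ S x, ∃ v ∉ S x, s(u, v) ∈ E ∧
      Dis (fun γ => Conn (γ ∩ inside (S x)) x u) (Far E S j v) ω

lemma inc_far (S : V → Set V) (j : ℕ) (x : V) : Inc (Far E S j x) := by
  cases j with
  | zero => exact fun _ _ _ h => h
  | succ j => exact fun _ _ h ⟨u, hu, v, hv, he, hd⟩ => ⟨u, hu, v, hv, he, inc_Dis _ _ _ _ h hd⟩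

lemma Fam.short (hG : DegLe G Δ) (hE : Sub G E) (h0 : 0 ≤ p) (h1 : p ≤ 1) {N : ℕ}
    (h : Fam E p N) (j : ℕ) (x : V) (T : Set V) :
    Pr E p (fun ω => Link ω {x} T) ≤
      Pr E p (fun ω => SLink (j * (N * Δ + 1)) ω x T) + (1 / 2) ^ j := by
  choose S s1 s2 s3 using h
  have i1 : ∀ j x, Pr E p (Far E (fun x => S x) j x) ≤ (1 / 2) ^ j := by
    intro j
    induction j with
    | zero => intro x; simpa using Pr_le_one h0 h1 _
    | succ j ih =>
      intro x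
      refine (Pr_exit_le h0 h1 (S x) (Far E (fun x => S x) j) (inc_far _ j)
        fun ω _ h => h).trans ?_
      rw [pow_succ']
      refine le_trans ?_ (mul_le_mul_of_nonneg_right (s3 x) (by positivity))
      unfold phi
      rw [Finset.sum_mul]
      exact Finset.sum_le_sum fun d _ => mul_le_mul_of_nonneg_left (ih _)
        (mul_nonneg (ind_nonneg _) (Pr_nonneg h0 h1 _))
  have i2 : ∀ j x d (ω : Set (Sym2 V)), ω ⊆ E → Conn ω x d →
      SConn (j * (N * Δ + 1)) ω x d ∨ Far E (fun x => S x) j x ω := by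
    intro j
    induction j with
    | zero => exact fun _ _ _ _ _ => Or.inr trivial
    | succ j ih =>
      intro x d ω hω h
      obtain ⟨F, f1, f2⟩ := hG.exists_touch (S x)
      have f3 : F.card ≤ N * Δ := f1.trans (Nat.mul_le_mul_right _ (s2 x))
      have f4 : ω ∩ inside (S x) ⊆ F := fun e he => f2 ⟨hE (hω he.1), inside_subset_touch he.2⟩
      obtain ⟨-, γ, g1, g2⟩ | ⟨u, hu, v, hv, he, γ, g1, g2, g3⟩ :=
        split_first (S x) (finite_of_sub hω) h (s1 x)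
      · exact Or.inl ((sconn_of_subset g2 (g1.trans Set.inter_subset_left) (g1.trans f4) f3).mono
          (by nlinarith) le_rfl)
      rcases ih v d (ω \ γ) (Set.sdiff_subset.trans hω) g3 with h | h
      · have a1 := sconn_of_subset g2 (g1.trans Set.inter_subset_left) (g1.trans f4) f3
        have a2 : SConn 1 ω u v := ⟨{s(u, v)}, by simpa using he, by simp, Conn.single (by simp)⟩
        exact Or.inl (((a1.trans a2).trans (h.mono le_rfl Set.sdiff_subset)).mono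
          (le_of_eq (by ring)) le_rfl)
      · exact Or.inr ⟨u, hu, v, hv, hω he, γ, ω \ γ, g1.trans Set.inter_subset_left,
          Set.sdiff_subset, Set.disjoint_sdiff_right, g2.mono fun e he => ⟨he, (g1 he).2⟩, h⟩
  refine (Pr_le_add h0 h1 (C := Far E (fun x => S x) j x) fun ω hω h => ?_).trans
    (add_le_add le_rfl (i1 j x))
  obtain ⟨d, hd, hc⟩ := link_singleton.1 h
  exact (i2 j x d ω hω hc).imp_left fun h => ⟨d, hd, h⟩

end Vale.Agent.P165
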