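import Vale.Agent.P165.Short
import Vale.Agent.P151.Gluing

/-!
The many-tries inequality and the gluing inequality for sets.
-/

namespace Vale.Agent.P165

open Vale.Agent.P151

variable {V : Type*} {G : SimpleGraph V} {E E' : Finset (Sym2 V)} {p t : ℝ} {x y z : V} {Δ D : ℕ}

lemma Pr_dart_le (h0 : 0 ≤ p) (h1 : p ≤ 1) (K : Set V) {A : Set (Sym2 V) → Prop}
    (B C : V → Set (Sym2 V) → Prop) (hB : ∀ v, Inc (B v)) (hC : ∀ v, Inc (C v))
    (h : ∀ ω : Set (Sym2 V), ω ⊆ E → A ω → ∃ u ∈ K, ∃ v ∉ K, s(u, v) ∈ E ∧ Dis (B u) (C v) ω) :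
    Pr E p A ≤ ∑ d ∈ darts E, Pr E p (B d.1) * (ind (d.1 ∈ K ∧ d.2 ∉ K) * Pr E p (C d.2)) := by
  refine (Pr_le_sum h0 h1 (darts E) (fun d ω => (d.1 ∈ K ∧ d.2 ∉ K) ∧
    Dis (B d.1) (C d.2) ω) fun ω hω hA => ?_).trans
    (Finset.sum_le_sum fun d _ => ?_)
  · obtain ⟨u, hu, v, hv, he, hd⟩ := h ω hω hA
    exact ⟨(u, v), mem_darts.2 he, ⟨hu, hv⟩, hd⟩
  · rw [mul_left_comm]
    unfold Pr
    simp only [ind_and (d.1 ∈ K ∧ d.2 ∉ K), Ex_mul_left]
    exact mul_le_mul_of_nonneg_left (bk h0 h1 (hB _) (hC _)) (ind_nonneg _)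

lemma resample (d : V) (F : Set V → Set (Sym2 V) → ℝ) :
    Ex E p (fun ω => F (Cl ω d) (ω \ touch (Cl ω d))) =
      Ex E p fun ω => Ex E p fun ζ => F (Cl ω d) (ζ \ touch (Cl ω d)) := by
  simpa only [Set.union_empty] using resample_Cl E p ∅ d F

lemma resampleS (Y : Set V) (F : Set V → Set (Sym2 V) → ℝ) :
    Ex E p (fun ω => F (ClS ω Y) (ω \ touch (ClS ω Y))) =
      Ex E p fun ω => Ex E p fun ζ => F (ClS ω Y) (ζ \ touch (ClS ω Y)) := by
  simpa only [Set.union_empty] using resample_ClS' E p ∅ Y F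

lemma disjoint_Cl_iff {ω : Set (Sym2 V)} {T : Set V} : Disjoint (Cl ω x) T ↔ ¬ Link ω {x} T := by
  rw [link_singleton, Set.disjoint_left]
  exact ⟨fun h ⟨y, hy, hc⟩ => h hc hy, fun h y hc hy => h ⟨y, hy, hc⟩⟩

/-- a closed pivotal edge whose far side is close to the target -/
def Piv (l : ℕ) (o : V) (T : Set V) (d : V × V) (ω : Set (Sym2 V)) : Prop :=
  ¬ Link ω {o} T ∧ Conn ω o d.1 ∧ ¬ Conn ω o d.2 ∧ SLink l ω d.2 T

lemma sum_piv_le (l : ℕ) (o : V) (T : Set V) (ω : Set (Sym2 V)) :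
    ∑ d ∈ darts E, ind (s(d.1, d.2) ∈ ω ∧ Piv l o T d (ω \ {s(d.1, d.2)})) ≤
      (l + 1) * ind (Link ω {o} T) := by
  classical
  set F := (darts E).filter fun d => s(d.1, d.2) ∈ ω ∧ Piv l o T d (ω \ {s(d.1, d.2)}) with hF
  have e : ∑ d ∈ darts E, ind (s(d.1, d.2) ∈ ω ∧ Piv l o T d (ω \ {s(d.1, d.2)})) = F.card := by
    rw [hF, Finset.card_filter]
    push_cast
    exact Finset.sum_congr rfl fun d _ => by unfold ind; congr
  rw [e]
  rcases F.eq_empty_or_nonempty with h | h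
  · rw [h]; simpa using mul_nonneg (by positivity) (ind_nonneg _)
  obtain ⟨d, hd⟩ := F.finite_toSet.exists_minimalFor (fun d => Cl (ω \ {s(d.1, d.2)}) o) _ h
  obtain ⟨-, he, -, p2, -, y, hy, γ, g1, g2, g3⟩ := Finset.mem_filter.1 hd.1
  rw [ind_of (link_singleton.2 ⟨y, hy, ((p2.mono Set.sdiff_subset).tail he).trans
    (g3.mono (g1.trans Set.sdiff_subset))⟩), mul_one]
  have : F.card ≤ (insert s(d.1, d.2) γ).card := by
    refine Finset.card_le_card_of_injOn (fun d => s(d.1, d.2)) (fun c hc => ?_) fun a ha b hb h => ?_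
    · obtain ⟨-, -, q1, q2, q3, -⟩ := Finset.mem_filter.1 hc
      by_contra hn
      simp only [Finset.coe_insert, Set.mem_insert_iff, not_or] at hn
      have a1 : ¬ Conn (ω \ {s(c.1, c.2)}) o d.2 := fun h => q1 (link_singleton.2 ⟨y, hy, h.trans
        (g3.mono fun e he => ⟨(g1 he).1, fun h => hn.2 (Set.mem_singleton_iff.1 h ▸ he)⟩)⟩)
      have a2 : ¬ Conn (ω \ {s(c.1, c.2)}) o d.1 := fun h => a1 (h.tail ⟨he, Ne.symm hn.1⟩)
      refine a2 (hd.2 hc (fun v hv => ?_) p2)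
      refine Conn.of_subset hv fun a b ha hb hab => ⟨hab.1, fun h => ?_⟩
      rcases Sym2.eq_iff.1 (Set.mem_singleton_iff.1 h) with h | h
      exacts [a2 (h.1 ▸ ha), a1 (h.1 ▸ ha)]
    · obtain ⟨-, -, -, q2, q3, -⟩ := Finset.mem_filter.1 ha
      obtain ⟨-, -, -, r2, r3, -⟩ := Finset.mem_filter.1 hb
      simp only at h
      rcases Sym2.eq_iff.1 h with h' | h'
      · exact Prod.ext h'.1 h'.2
      · rw [← h, ← h'.2] at r2
        exact absurd r2 q3
  exact_mod_cast this.trans ((Finset.card_insert_le _ _).trans (Nat.succ_le_succ g2))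

/-- The many-tries inequality. -/
theorem star (hE : Sub G E) (h0 : 0 ≤ p) (h1 : p ≤ 1) {l : ℕ} {M : ℝ} (hM : SBnd G p l M)
    (o : V) (T : Set V) (Λ : Finset V) :
    p * ∑ z ∈ Λ, Pr E p (fun ω => Conn ω o z ∧ ¬ Link ω {o} T) * Pr E p (fun ω => SLink l ω z T) ≤
      (l + 1) * M * Pr E p fun ω => Link ω {o} T := by
  have M0 : 0 ≤ M := by simpa using hM E hE o ∅
  have s1 : ∀ K : Set V, ∑ z ∈ Λ, ind (z ∈ K ∧ Disjoint K T) * Pr E p (fun ω => SLink l ω z T) ≤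
      M * Ex E p fun η => ∑ d ∈ darts E,
        ind (Disjoint K T ∧ (d.1 ∈ K ∧ d.2 ∉ K) ∧ SLink l (η \ touch K) d.2 T) := by
    intro K
    by_cases hK : Disjoint K T
    swap
    · simp only [ind_of_not (fun h : _ ∧ _ => hK h.2), ind_of_not (fun h : _ ∧ _ => hK h.1)]
      simp
    have i1 : ∀ z, ind (z ∈ K ∧ Disjoint K T) * Pr E p (fun ω => SLink l ω z T) ≤
        ∑ d ∈ darts E, Pr E p (fun ω => SConn l ω z d.1) * (ind (d.1 ∈ K ∧ d.2 ∉ K) *
          Pr E p fun η => SLink l (η \ touch K) d.2 T) := by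
      intro z
      by_cases hz : z ∈ K
      swap
      · rw [ind_of_not (fun h => hz h.1), zero_mul]
        exact Finset.sum_nonneg fun d _ =>
          mul_nonneg (Pr_nonneg h0 h1 _) (mul_nonneg (ind_nonneg _) (Pr_nonneg h0 h1 _))
      rw [ind_of ⟨hz, hK⟩, one_mul]
      refine Pr_dart_le h0 h1 K (fun w ω => SConn l ω z w) (fun v η => SLink l (η \ touch K) v T)
        (inc_sconn l z) (fun v _ _ h => inc_slink l v T _ _ (Set.sdiff_subset_sdiff_left h))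
        fun ω hω ⟨y, hy, γ, g1, g2, g3⟩ => ?_
      obtain ⟨w, hw, v, hv, he, γ', k1, k2, k3⟩ :=
        split_last K γ.finite_toSet g3 hz (Set.disjoint_right.1 hK hy)
      exact ⟨w, hw, v, hv, hω (g1 he), γ', γ \ γ', k1.trans g1, Set.sdiff_subset.trans g1,
        Set.disjoint_sdiff_right, sconn_of_subset k2 le_rfl k1 g2, y, hy,
        sconn_of_subset k3 le_rfl (Set.sdiff_subset.trans Set.sdiff_subset) g2⟩
    refine (Finset.sum_le_sum fun z _ => i1 z).trans ?_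
    rw [Finset.sum_comm, Ex_sum, Finset.mul_sum]
    refine Finset.sum_le_sum fun d _ => ?_
    rw [← Finset.sum_mul]
    simp only [ind_and (Disjoint K T), ind_and (d.1 ∈ K ∧ d.2 ∉ K), ind_of hK, one_mul,
      Ex_mul_left]
    exact mul_le_mul_of_nonneg_right (hM E hE _ _) (mul_nonneg (ind_nonneg _) (Pr_nonneg h0 h1 _))
  have s2 : ∑ z ∈ Λ, Pr E p (fun ω => Conn ω o z ∧ ¬ Link ω {o} T) *
      Pr E p (fun ω => SLink l ω z T) ≤ M * ∑ d ∈ darts E, Pr E p (Piv l o T d) := by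
    have e1 : ∑ z ∈ Λ, Pr E p (fun ω => Conn ω o z ∧ ¬ Link ω {o} T) *
        Pr E p (fun ω => SLink l ω z T) = Ex E p fun ω => ∑ z ∈ Λ,
          ind (z ∈ Cl ω o ∧ Disjoint (Cl ω o) T) * Pr E p (fun ω => SLink l ω z T) := by
      simp only [Ex_sum, Ex_mul_right, disjoint_Cl_iff]
      rfl
    rw [e1]
    refine (Ex_mono h0 h1 fun ω _ => s1 (Cl ω o)).trans ?_
    rw [Ex_mul_left, ← resample o (fun K η => ∑ d ∈ darts E,
      ind (Disjoint K T ∧ (d.1 ∈ K ∧ d.2 ∉ K) ∧ SLink l η d.2 T)), Ex_sum]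
    refine mul_le_mul_of_nonneg_left (Finset.sum_le_sum fun d _ => Pr_mono h0 h1 ?_) M0
    exact fun ω _ h => ⟨disjoint_Cl_iff.1 h.1, h.2.1.1, h.2.1.2,
      inc_slink _ _ _ _ _ Set.sdiff_subset h.2.2⟩
  have s3 : p * ∑ d ∈ darts E, Pr E p (Piv l o T d) ≤ (l + 1) * Pr E p fun ω => Link ω {o} T := by
    rw [Finset.mul_sum]
    refine (Finset.sum_le_sum fun d hd => Pr_open_edge h0 h1 (mem_darts.1 hd)
      fun ω h he => h.2.2.1 (h.2.1.tail he)).trans ?_
    unfold Pr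
    rw [← Ex_sum, ← Ex_mul_left]
    exact Ex_mono h0 h1 fun ω _ => sum_piv_le l o T ω
  nlinarith [mul_le_mul_of_nonneg_left s2 h0, mul_le_mul_of_nonneg_left s3 M0]

/-- The gluing inequality for a general decreasing functional of the cluster. -/
theorem glue (h0 : 0 ≤ p) (h1 : p < 1) (o : V) (g : Set V → ℝ) (hg : Antitone g) (A : Set V)
    (hA : ∀ a ∈ A, Ex E p (fun ω => g (Cl ω a)) ≤ 0) :
    Ex E p (fun ω => g (Cl ω o) * ind (Link ω {o} A)) ≤ 0 := by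
  classical
  have h := glue_list (E := E) (H := ∅) h0 h1 o g hg
    ((insert o (verts E)).filter (· ∈ A)).toList (fun a ha => by
      simp only [Finset.mem_toList, Finset.mem_filter] at ha
      simpa only [Set.union_empty] using hA a ha.2) ∅
  simp only [ClS_empty, ev_empty, Ex_const, Set.empty_union, Set.union_empty,
    Finset.mem_toList] at h
  refine le_trans (le_of_eq (Ex_congr fun ω hω => ?_)) h
  congr 1
  refine ind_congr ⟨fun h => ?_, fun ⟨a, ha, h⟩ => link_singleton.2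
    ⟨a, (Finset.mem_filter.1 ha).2, h.symm⟩⟩
  obtain ⟨a, ha, h⟩ := link_singleton.1 h
  exact ⟨a, Finset.mem_filter.2 ⟨Finset.mem_insert.2 (mem_verts_of_conn hω h), ha⟩, h.symm⟩

lemma glue_link (h0 : 0 ≤ p) (h1 : p < 1) (o : V) (A T : Set V) {q : ℝ}
    (hA : ∀ a ∈ A, q ≤ Pr E p fun ω => Link ω {a} T) :
    q * Pr E p (fun ω => Link ω {o} A) ≤ Pr E p fun ω => Link ω {o} T := by
  have h := glue (E := E) h0 h1 o (fun K => q - ind (¬ Disjoint K T))
    (fun K K' hK => sub_le_sub_left (ind_mono fun h h' => h (h'.mono_left hK)) _) A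
    fun a ha => by
      simp only [disjoint_Cl_iff, not_not, Ex_sub, Ex_const]
      exact sub_nonpos.2 (hA a ha)
  simp only [disjoint_Cl_iff, not_not, sub_mul, Ex_sub, Ex_mul_left] at h
  refine (sub_nonpos.1 h).trans (Ex_mono h0 h1.le fun ω _ => ?_)
  exact mul_le_of_le_one_right (ind_nonneg _) (ind_le_one _)

lemma glue_sum (h0 : 0 ≤ p) (h1 : p < 1) (o : V) (S : Finset V) {σ : ℝ}
    (hS : ∀ a ∈ S, σ ≤ ∑ y ∈ S, tau E p a y) :
    σ * Pr E p (fun ω => Link ω {o} S) ≤ ∑ y ∈ S, tau E p o y := by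
  have h := glue (E := E) h0 h1 o (fun K => σ - ∑ y ∈ S, ind (y ∈ K))
    (fun K K' hK => sub_le_sub_left (Finset.sum_le_sum fun y _ => ind_mono fun h => hK h) _) S
    fun a ha => by
      simp only [Ex_sub, Ex_const, Ex_sum]
      exact sub_nonpos.2 (hS a ha)
  simp only [sub_mul, Ex_sub, Ex_mul_left] at h
  refine (sub_nonpos.1 h).trans ?_
  unfold tau Pr
  rw [← Ex_sum]
  exact Ex_mono h0 h1.le fun ω _ =>
    mul_le_of_le_one_right (Finset.sum_nonneg fun _ _ => ind_nonneg _) (ind_le_one _)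

end Vale.Agent.P165
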