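import Vale.Agent.P165.Paths
import Vale.Agent.P165.Kernel

/-!
The two-point function, susceptibility and operator bounds, and their windows.
-/

namespace Vale.Agent.P165

open Vale.Agent.P151

variable {V : Type*} {G : SimpleGraph V} {E E' : Finset (Sym2 V)} {p t : ℝ} {x y z : V} {Δ : ℕ}

/-- two-point function -/
noncomputable def tau (E : Finset (Sym2 V)) (p : ℝ) (x y : V) : ℝ := Pr E p fun ω => Conn ω x y

/-- upper bound on the susceptibility -/
def Bnd (G : SimpleGraph V) (p X : ℝ) : Prop :=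
  ∀ E, Sub G E → ∀ (x : V) (Λ : Finset V), ∑ y ∈ Λ, tau E p x y ≤ X

/-- lower bound on the susceptibility -/
def Low (G : SimpleGraph V) (p a : ℝ) : Prop :=
  ∀ x, ∃ E, Sub G E ∧ ∃ Λ : Finset V, a ≤ ∑ y ∈ Λ, tau E p x y

/-- operator bound on the two-point function -/
def OpBnd (G : SimpleGraph V) (p B : ℝ) : Prop := ∀ E, Sub G E → ∀ Λ, OpK Λ (tau E p) B

lemma inc_conn (x y : V) : Inc fun ω => Conn ω x y := fun _ _ h hc => hc.mono h

lemma inc_conn_off (x y : V) (T : Set (Sym2 V)) : Inc fun ω => Conn (ω \ T) x y :=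
  fun _ _ h hc => hc.mono (Set.sdiff_subset_sdiff_left h)

lemma inc_conn_in (x y : V) (T : Set (Sym2 V)) : Inc fun ω => Conn (ω ∩ T) x y :=
  fun _ _ h hc => hc.mono (Set.inter_subset_inter_left _ h)

lemma Pr_mono_E (h0 : 0 ≤ p) (h1 : p ≤ 1) {ι : Type*} {E E' : Finset ι} (h : E' ⊆ E)
    {A : Set ι → Prop} (hA : Inc A) : Pr E' p A ≤ Pr E p A :=
  Pr_le_of_subset h0 h1 h fun _ _ h => hA _ _ Set.inter_subset_left h

lemma tau_nonneg (h0 : 0 ≤ p) (h1 : p ≤ 1) : 0 ≤ tau E p x y := Pr_nonneg h0 h1 _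

lemma tau_le_one (h0 : 0 ≤ p) (h1 : p ≤ 1) : tau E p x y ≤ 1 := Pr_le_one h0 h1 _

lemma tau_symm (x y : V) : tau E p x y = tau E p y x := Pr_congr fun _ _ => ⟨Conn.symm, Conn.symm⟩

lemma tau_self : tau E p x x = 1 := by
  unfold tau Pr
  simp only [ind_of (Conn.refl _ x), Ex_const]

lemma tau_mono_E (h0 : 0 ≤ p) (h1 : p ≤ 1) (h : E' ⊆ E) : tau E' p x y ≤ tau E p x y :=
  Pr_mono_E h0 h1 h (inc_conn x y)

lemma tau_mono_p (h0 : 0 ≤ p) (h : p ≤ t) (h1 : t ≤ 1) : tau E p x y ≤ tau E t x y :=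
  Pr_mono_p h0 h h1 (inc_conn x y)

lemma sum_tau_mono (h0 : 0 ≤ p) (h : p ≤ t) (h1 : t ≤ 1) (hE : E' ⊆ E) {Λ Λ' : Finset V}
    (hΛ : Λ' ⊆ Λ) : ∑ y ∈ Λ', tau E' p x y ≤ ∑ y ∈ Λ, tau E t x y :=
  (Finset.sum_le_sum fun _ _ => (tau_mono_E h0 (h.trans h1) hE).trans (tau_mono_p h0 h h1)).trans
    (Finset.sum_le_sum_of_subset_of_nonneg hΛ fun _ _ _ => tau_nonneg (h0.trans h) h1)

lemma ker_tau (h0 : 0 ≤ p) (h1 : p ≤ 1) : Ker (tau E p) := by
  classical
  refine ⟨tau_symm, fun _ _ => tau_nonneg h0 h1, fun Λ f => ?_⟩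
  unfold Bf tau Pr
  simp only [← Ex_mul_left, ← Ex_sum]
  refine Ex_nonneg h0 h1 fun ω _ => ?_
  have : ∑ x ∈ Λ, ∑ y ∈ Λ, f x * f y * ind (Conn ω x y) =
      ∑ c ∈ Λ.image (Cl ω), (∑ x ∈ Λ.filter (fun x => Cl ω x = c), f x) ^ 2 := by
    rw [← Finset.sum_fiberwise_of_maps_to (g := Cl ω) (t := Λ.image (Cl ω))
      fun x hx => Finset.mem_image_of_mem _ hx]
    refine Finset.sum_congr rfl fun c _ => ?_
    rw [sq, Finset.sum_mul_sum]
    refine Finset.sum_congr rfl fun x hx => ?_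
    rw [Finset.sum_filter]
    refine Finset.sum_congr rfl fun y _ => ?_
    rw [← (Finset.mem_filter.1 hx).2]
    by_cases h : Conn ω x y
    · rw [ind_of h, if_pos (Cl_eq_of_mem h), mul_one]
    · rw [ind_of_not h, if_neg, mul_zero]
      exact fun h' => h (show y ∈ Cl ω x from h' ▸ mem_Cl_self)
  rw [this]
  exact Finset.sum_nonneg fun _ _ => sq_nonneg _

lemma Bnd.mono {X X' : ℝ} (h : Bnd G t X) (h0 : 0 ≤ p) (hp : p ≤ t) (h1 : t ≤ 1) (hX : X ≤ X') :
    Bnd G p X' := fun E hE x Λ =>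
  (sum_tau_mono h0 hp h1 le_rfl le_rfl).trans ((h E hE x Λ).trans hX)

lemma Low.mono {a a' : ℝ} (h : Low G p a) (h0 : 0 ≤ p) (hp : p ≤ t) (h1 : t ≤ 1) (ha : a' ≤ a) :
    Low G t a' := fun x => by
  obtain ⟨E, hE, Λ, h⟩ := h x
  exact ⟨E, hE, Λ, ha.trans (h.trans (sum_tau_mono h0 hp h1 le_rfl le_rfl))⟩

lemma opK_mono_p {Λ : Finset V} {B : ℝ} (h : OpK Λ (tau E t) B) (h0 : 0 ≤ p) (hp : p ≤ t)
    (h1 : t ≤ 1) : OpK Λ (tau E p) B := fun f hf =>
  le_trans (Finset.sum_le_sum fun x _ => Finset.sum_le_sum fun y _ =>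
    mul_le_mul_of_nonneg_left (tau_mono_p h0 hp h1) (mul_nonneg (hf x) (hf y))) (h f hf)

lemma OpBnd.mono {B B' : ℝ} (h : OpBnd G t B) (h0 : 0 ≤ p) (hp : p ≤ t) (h1 : t ≤ 1)
    (hB : B ≤ B') : OpBnd G p B' := fun E hE Λ => (opK_mono_p (h E hE Λ) h0 hp h1).mono hB

lemma sub_empty : Sub G ∅ := by simp [Sub]

lemma Sub.union [DecidableEq (Sym2 V)] (h : Sub G E) (h' : Sub G E') : Sub G (E ∪ E') := by
  unfold Sub at *
  rw [Finset.coe_union]
  exact Set.union_subset h h'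

lemma Bnd.one_le {X : ℝ} (h : Bnd G p X) (x : V) : 1 ≤ X := by
  simpa [tau_self] using h ∅ sub_empty x {x}

lemma OpBnd.one_le {X : ℝ} (h : OpBnd G p X) (x : V) : 1 ≤ X := by
  simpa [Bf, tau_self] using h ∅ sub_empty {x} (fun _ => 1) fun _ => zero_le_one

lemma Low.not_Bnd {a X : ℝ} (h : Low G p a) (x : V) (hX : X < a) : ¬ Bnd G p X := fun hB => by
  obtain ⟨E, hE, Λ, h⟩ := h x
  linarith [hB E hE x Λ]

/-- a common finite volume for finitely many lower bounds -/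
lemma Low.common {a : ℝ} (h : Low G p a) (h0 : 0 ≤ p) (h1 : p ≤ 1) (hE : Sub G E)
    (Z : Finset V) : ∃ E', Sub G E' ∧ E ⊆ E' ∧ ∃ Λ : Finset V, Z ⊆ Λ ∧ verts E' ⊆ Λ ∧
      ∀ z ∈ Z, a ≤ ∑ y ∈ Λ, tau E' p z y := by
  classical
  choose F hF L hL using h
  refine ⟨E ∪ Z.biUnion F, hE.union ?_, Finset.subset_union_left,
    Z ∪ verts (E ∪ Z.biUnion F) ∪ Z.biUnion L,
    Finset.subset_union_left.trans Finset.subset_union_left,
    Finset.subset_union_right.trans Finset.subset_union_left, fun z hz => (hL z).trans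
      (sum_tau_mono h0 le_rfl h1
        ((Finset.subset_biUnion_of_mem F hz).trans Finset.subset_union_right)
        ((Finset.subset_biUnion_of_mem L hz).trans Finset.subset_union_right))⟩
  intro e he
  obtain ⟨z, -, hz⟩ := Finset.mem_biUnion.1 he
  exact hF z hz

lemma finite_of_sub {ω : Set (Sym2 V)} (h : ω ⊆ E) : ω.Finite := E.finite_toSet.subset h

/-- the tree-graph inequality -/
lemma tree_ineq (h0 : 0 ≤ p) (h1 : p ≤ 1) {Λ : Finset V} (hΛ : verts E ⊆ Λ) (hx : x ∈ Λ) :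
    Pr E p (fun ω => Conn ω x y ∧ Conn ω x z) ≤
      ∑ b ∈ Λ, tau E p x b * (tau E p b y * tau E p b z) := by
  refine (Pr_le_sum h0 h1 Λ (fun b => Dis (fun γ => Conn γ x b)
    (Dis (fun γ => Conn γ b y) fun γ => Conn γ b z)) fun ω hω h => ?_).trans
    (Finset.sum_le_sum fun b _ => (bk h0 h1 (inc_conn _ _) (inc_Dis _ _)).trans
      (mul_le_mul_of_nonneg_left (bk h0 h1 (inc_conn _ _) (inc_conn _ _)) (Pr_nonneg h0 h1 _)))
  obtain ⟨b, hb⟩ := split_tree (finite_of_sub hω) h.1 h.2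
  refine ⟨b, ?_, hb⟩
  obtain ⟨γ, -, g1, -, -, g2, -⟩ := hb
  rcases mem_verts_of_conn (g1.trans hω) g2 with rfl | h
  exacts [hx, hΛ h]

/-- derivative of the two-point function -/
noncomputable def dtau (E : Finset (Sym2 V)) (p : ℝ) (x y : V) : ℝ :=
  ∑ e ∈ E, Ex E p fun ω => ind (Conn (insert e ω) x y) - ind (Conn (ω \ {e}) x y)

lemma hasDerivAt_tau (E : Finset (Sym2 V)) (x y : V) (p : ℝ) :
    HasDerivAt (fun t => tau E t x y) (dtau E p x y) p :=
  russo (fun ω => ind (Conn ω x y)) p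

lemma dtau_le (h0 : 0 ≤ p) (h1 : p ≤ 1) (hE : Sub G E) :
    dtau E p x y ≤ ∑ d ∈ darts E, tau E p x d.1 * tau E p d.2 y := by
  refine le_sum_darts hE (g := fun d => tau E p x d.1 * tau E p d.2 y) fun a b _ => ?_
  refine le_trans ?_ ((Pr_or_le (E := E) h0 h1 (Dis (fun γ => Conn γ x a) fun γ => Conn γ b y)
    (Dis (fun γ => Conn γ x b) fun γ => Conn γ a y)).trans
    (add_le_add (bk h0 h1 (inc_conn _ _) (inc_conn _ _)) (bk h0 h1 (inc_conn _ _) (inc_conn _ _))))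
  refine Ex_mono h0 h1 fun ω _ => ?_
  by_cases c : Conn (ω \ {s(a, b)}) x y
  · rw [ind_of c]
    linarith [ind_le_one (Conn (insert s(a, b) ω) x y), ind_nonneg
      (Dis (fun γ => Conn γ x a) (fun γ => Conn γ b y) ω ∨
        Dis (fun γ => Conn γ x b) (fun γ => Conn γ a y) ω)]
  rw [ind_of_not c, sub_zero]
  refine ind_mono fun h => ?_
  have := conn_erase a b h
  rw [Set.insert_sdiff_of_mem _ (Set.mem_singleton _)] at this
  rcases this with h | h | h
  · exact absurd h c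
  · exact Or.inl (inc_Dis _ _ _ _ Set.sdiff_subset
      (dis_of_not_conn (fun h' => c (h'.trans h.2)) h.1 h.2))
  · exact Or.inr (inc_Dis _ _ _ _ Set.sdiff_subset
      (dis_of_not_conn (fun h' => c (h'.trans h.2)) h.1 h.2))

lemma Bnd.window (hG : DegLe G Δ) (hΔ : 0 < Δ) {X : ℝ} (h : Bnd G p X) (hX : 0 < X) (h0 : 0 ≤ p)
    (hp : p ≤ t) (h1 : t ≤ 1) (ht : t - p ≤ 1 / (8 * Δ * X)) : Bnd G t (2 * X) := by
  classical
  intro E hE x Λ₀
  set Λ := Λ₀ ∪ verts E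
  have hΛ : verts E ⊆ Λ := Finset.subset_union_right
  refine (sum_tau_mono (h0.trans hp) le_rfl h1 le_rfl (Λ := Λ) Finset.subset_union_left).trans ?_
  refine bootstrap (fun s b => ∀ x, ∑ y ∈ Λ, tau E s x y ≤ b) (L := Λ.card)
    (by exact_mod_cast hΔ) hX (fun s b b' hb h x => (h x).trans hb) (fun s a1 a2 x => ?_)
    (fun s s' b b' a1 a2 a3 hb hb' x => ?_) (fun x => h E hE x Λ) hp ht x
  · simpa using Finset.sum_le_card_nsmul Λ _ 1 fun y _ => tau_le_one (h0.trans a1) (a2.trans h1)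
  have s0 := h0.trans a1
  have s1 := a3.trans h1
  have b0 : 0 ≤ b' := (Finset.sum_nonneg fun _ _ => tau_nonneg (s0.trans a2) s1).trans (hb' x)
  have := sub_le_of_deriv (f := fun r => ∑ y ∈ Λ, tau E r x y)
    (fun r => HasDerivAt.fun_sum fun y _ => hasDerivAt_tau E x y r) a2 (c := Δ * b' ^ 2)
    fun r r1 r2 => by
      have r0 := s0.trans r1
      have r3 := r2.trans s1
      have hr : ∀ x, ∑ y ∈ Λ, tau E r x y ≤ b' := fun x =>
        (sum_tau_mono r0 r2 s1 le_rfl le_rfl).trans (hb' x)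
      refine (Finset.sum_le_sum fun y _ => dtau_le r0 r3 hE).trans ?_
      rw [Finset.sum_comm]
      calc _ ≤ ∑ d ∈ darts E, tau E r x d.1 * b' := Finset.sum_le_sum fun d _ => by
            rw [← Finset.mul_sum]
            exact mul_le_mul_of_nonneg_left (hr _) (tau_nonneg r0 r3)
        _ ≤ Δ * b' * b' := by
            rw [← Finset.sum_mul]
            refine mul_le_mul_of_nonneg_right ((sum_darts_fst hG hE hΛ (g := tau E r x)
              fun _ => tau_nonneg r0 r3).trans ?_) b0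
            exact mul_le_mul_of_nonneg_left (hr x) (by positivity)
        _ = _ := by ring
  linarith [hb x]

lemma OpBnd.window (hG : DegLe G Δ) (hΔ : 0 < Δ) {B : ℝ} (h : OpBnd G p B) (hB : 0 < B)
    (h0 : 0 ≤ p) (hp : p ≤ t) (h1 : t ≤ 1) (ht : t - p ≤ 1 / (8 * Δ * B)) :
    OpBnd G t (2 * B) := by
  classical
  intro E hE Λ₀
  set Λ := Λ₀ ∪ verts E
  have hΛ : verts E ⊆ Λ := Finset.subset_union_right
  refine OpK.subset (Λ := Λ) ?_ Finset.subset_union_left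
  refine (bootstrap (fun s b => 0 < b ∧ OpK Λ (tau E s) b) (L := Λ.card + 1)
    (by exact_mod_cast hΔ) hB (fun s b b' hb h => ⟨h.1.trans_le hb, h.2.mono hb⟩)
    (fun s a1 a2 => ⟨by positivity, ?_⟩)
    (fun s s' b b' a1 a2 a3 hb hb' => ⟨?_, fun f hf => ?_⟩) ⟨hB, h E hE Λ⟩ hp ht).2
  · refine (ker_tau (h0.trans a1) (a2.trans h1)).opK_of_rows fun x _ => ?_
    have := Finset.sum_le_card_nsmul Λ _ 1 fun y _ =>
      tau_le_one (E := E) (x := x) (y := y) (h0.trans a1) (a2.trans h1)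
    simp only [nsmul_eq_mul, mul_one] at this
    linarith
  · have := hb.1
    have := sub_nonneg.2 a2
    positivity
  have s0 := h0.trans a1
  have s1 := a3.trans h1
  have := sub_le_of_deriv (f := fun r => Bf Λ (tau E r) f f)
    (fun r => HasDerivAt.fun_sum fun x _ => HasDerivAt.fun_sum fun y _ =>
      (hasDerivAt_tau E x y r).const_mul (f x * f y)) a2 (c := Δ * b' ^ 2 * ∑ x ∈ Λ, f x ^ 2)
    fun r r1 r2 => by
      have r0 := s0.trans r1
      have r3 := r2.trans s1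
      have i1 := (opK_mono_p hb'.2 r0 r2 s1).sq_le (ker_tau r0 r3) hb'.1 hf
      set u : V → ℝ := fun w => ∑ x ∈ Λ, f x * tau E r x w with hu
      have i2 := sum_darts_fst hG hE hΛ (g := fun w => u w ^ 2) fun _ => sq_nonneg _
      have i3 := sum_darts_snd hG hE hΛ (g := fun w => u w ^ 2) fun _ => sq_nonneg _
      have i4 : ∑ x ∈ Λ, ∑ y ∈ Λ, f x * f y * dtau E r x y ≤ ∑ d ∈ darts E, u d.1 * u d.2 := by
        refine (Finset.sum_le_sum fun x _ => Finset.sum_le_sum fun y _ =>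
          mul_le_mul_of_nonneg_left (dtau_le r0 r3 hE) (mul_nonneg (hf x) (hf y))).trans
          (le_of_eq ?_)
        simp only [hu, Finset.mul_sum, Finset.sum_mul]
        conv_lhs => enter [2, x]; rw [Finset.sum_comm]
        rw [Finset.sum_comm]
        refine Finset.sum_congr rfl fun d _ => ?_
        rw [Finset.sum_comm]
        refine Finset.sum_congr rfl fun y _ => Finset.sum_congr rfl fun x _ => ?_
        rw [tau_symm d.2 y]; ring
      have i5 : 2 * ∑ d ∈ darts E, u d.1 * u d.2 ≤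
          ∑ d ∈ darts E, u d.1 ^ 2 + ∑ d ∈ darts E, u d.2 ^ 2 := by
        rw [Finset.mul_sum, ← Finset.sum_add_distrib]
        exact Finset.sum_le_sum fun d _ => by nlinarith [sq_nonneg (u d.1 - u d.2)]
      have i6 := mul_le_mul_of_nonneg_left i1 (show (0 : ℝ) ≤ Δ by positivity)
      rw [mul_assoc]
      linarith
  have := hb.2 f hf
  nlinarith

end Vale.Agent.P165
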